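import Crest.Agent.N207.D.Flux
import Crest.Agent.N207.E.Cut
import Crest.Agent.N207.C.Lip

/-!
# Row 207, block D: `psi (u / ρ)` is a cutoff; flux of a cutoff on a short window
-/

set_option autoImplicit false
set_option linter.dupNamespace false
set_option linter.unusedSectionVars false
open Set MeasureTheory
open scoped ContDiff

noncomputable section

namespace Crest.Agent.N207

namespace D

open E

/-- the rescaled profile -/
def ps (ρ s : ℝ) : ℝ := psi (s / ρ)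

theorem ps_cd (ρ : ℝ) : ContDiff ℝ ∞ (ps ρ) := psi_cd.comp (contDiff_id.div_const ρ)

theorem ps_nonneg (ρ s : ℝ) : 0 ≤ ps ρ s := psi_nonneg _

theorem ps_le_one (ρ s : ℝ) : ps ρ s ≤ 1 := psi_le_one _

theorem ps_one {ρ s : ℝ} (hρ : 0 < ρ) (h : s ≤ ρ) : ps ρ s = 1 := psi_one ((div_le_one hρ).2 h)

theorem ps_zero {ρ s : ℝ} (hρ : 0 < ρ) (h : 2 * ρ ≤ s) : ps ρ s = 0 :=
  psi_zero ((le_div_iff₀ hρ).2 h)

theorem ps_d1 (ρ : ℝ) : deriv (ps ρ) = fun s => deriv psi (s / ρ) / ρ := by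
  funext s
  have h1 : HasDerivAt psi (deriv psi (s / ρ)) (s / ρ) :=
    (psi_cd.differentiable (by simp) _).hasDerivAt
  have := HasDerivAt.comp (h₂ := psi) s h1 ((hasDerivAt_id s).div_const ρ)
  refine (HasDerivAt.congr_deriv (f := ps ρ) this ?_).deriv
  ring

theorem ps_d2 (ρ s : ℝ) : deriv (deriv (ps ρ)) s = deriv (deriv psi) (s / ρ) / ρ ^ 2 := by
  rw [ps_d1]
  have hc : ContDiff ℝ ∞ (deriv psi) := (contDiff_infty_iff_deriv.1 psi_cd).2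
  have h1 : HasDerivAt (deriv psi) (deriv (deriv psi) (s / ρ)) (s / ρ) :=
    (hc.differentiable (by simp) _).hasDerivAt
  have := (HasDerivAt.comp (h₂ := deriv psi) s h1 ((hasDerivAt_id s).div_const ρ)).div_const ρ
  refine (HasDerivAt.congr_deriv (f := fun s => deriv psi (s / ρ) / ρ) this ?_).deriv
  ring

theorem ps_bounds : ∃ K, 1 ≤ K ∧ ∀ ρ > 0, ∀ s, |deriv (ps ρ) s| ≤ K / ρ * √(ps ρ s) ∧
    |deriv (deriv (ps ρ)) s| ≤ K / ρ ^ 2 * √(ps ρ s) ∧ deriv (ps ρ) s ^ 2 ≤ K / ρ ^ 2 * ps ρ s := by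
  obtain ⟨K, hK, h1, h2⟩ := psi_bounds
  refine ⟨K, hK, fun ρ hρ s => ?_⟩
  have e : √(ps ρ s) = chi (s / ρ) := by
    unfold ps; rw [psi_eq, Real.sqrt_sq (chi_nonneg _)]
  have p0 := psi_nonneg (s / ρ)
  have k1 : deriv psi (s / ρ) ^ 2 ≤ K * psi (s / ρ) :=
    (h1 _).trans (mul_le_of_le_one_right (by positivity) (chi_le_one _))
  refine ⟨?_, ?_, ?_⟩
  · rw [ps_d1, e, abs_div, abs_of_pos hρ, div_mul_eq_mul_div]
    refine div_le_div_of_nonneg_right (abs_le_of_sq_le_sq' ?_ ?_ |> abs_le.2) hρ.le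
    · rw [mul_pow, ← psi_eq]
      refine k1.trans (mul_le_mul_of_nonneg_right (by nlinarith) p0)
    · have := chi_nonneg (s / ρ); positivity
  · rw [ps_d2, e, abs_div, abs_of_pos (by positivity : 0 < ρ ^ 2), div_mul_eq_mul_div]
    exact div_le_div_of_nonneg_right (h2 _) (by positivity)
  · rw [ps_d1, div_pow, div_mul_eq_mul_div]
    exact div_le_div_of_nonneg_right k1 (by positivity)

variable {M : Type*} [TopologicalSpace M] [CompactSpace M] [MeasurableSpace M]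
  [OpensMeasurableSpace M] {H : HC M}

/-- `psi (u / ρ)` is a cutoff -/
theorem cutf_ps (A : H.Alg) (I : H.Intg) : ∃ K, 1 ≤ K ∧ ∀ {a b r L ρ Λ : ℝ} {u u' : ℝ → M → ℝ},
    H.St a b → 0 < ρ → 0 ≤ Λ → H.Sm a b u → HasDt a b u u' →
    (∀ t ∈ Icc a b, ∀ x, H.gam t (u t) (u t) x ≤ 1) → (∀ t ∈ Icc a b, ∀ x, |u' t x| ≤ Λ) →
    (∀ t ∈ Icc a b, ∀ x, |H.lap t (u t) x| ≤ Λ) → K * (Λ / ρ + 1 / ρ ^ 2) ≤ L / r ^ 2 →
    (∀ t ∈ Icc a b, (H.vol t).real {x | u t x < 2 * ρ} ≤ L * r ^ 4) →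
    H.Cutf a b r L (fun t x => ps ρ (u t x)) (fun t x => deriv (ps ρ) (u t x) * u' t x) ∧
      ∀ t ∈ Icc a b, ∀ x, |deriv (ps ρ) (u t x) * u' t x| ≤ K * Λ / ρ ∧
        H.gam t (fun y => ps ρ (u t y)) (fun y => ps ρ (u t y)) x ≤ K / ρ ^ 2 := by
  obtain ⟨K, hK, hb⟩ := ps_bounds
  refine ⟨K, hK, fun {a b r L ρ Λ u u'} hs hρ hΛ su du hg h1 h2 hL hV => ?_⟩
  have hK0 : 0 ≤ K := by linarith
  have x1 : 0 ≤ K * (Λ / ρ) := by positivity
  have x2 : 0 ≤ K * (1 / ρ ^ 2) := by positivity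
  have b1 : ∀ (s w : ℝ), |w| ≤ Λ → |deriv (ps ρ) s * w| ≤ K * (Λ / ρ) * √(ps ρ s) := by
    intro s w hw
    rw [abs_mul]
    calc _ ≤ K / ρ * √(ps ρ s) * Λ :=
          mul_le_mul (hb ρ hρ s).1 hw (abs_nonneg _) (by positivity)
      _ = _ := by ring
  have b3 : ∀ t ∈ Icc a b, ∀ x, H.gam t (fun y => ps ρ (u t y)) (fun y => ps ρ (u t y)) x ≤
      K / ρ ^ 2 * ps ρ (u t x) := fun t ht x => by
    rw [A.gam_compU2 (hs.mem ht) (ps_cd ρ) (A.sm_s0 su t ht)]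
    exact (mul_le_of_le_one_right (sq_nonneg _) (hg t ht x)).trans (hb ρ hρ _).2.2
  have q1 : ∀ s, √(ps ρ s) ≤ 1 := fun s => Real.sqrt_le_one.2 (ps_le_one ρ s)
  refine ⟨⟨A.sm_compU (ps_cd ρ) su,
    du.comp isOpen_univ (ps_cd ρ).contDiffOn fun _ _ _ => mem_univ _,
    fun t _ x => ps_nonneg _ _, fun t _ x => ps_le_one _ _, fun t ht x => ?_, fun t ht x => ?_,
    fun t ht x => ?_, fun t ht => ?_⟩, fun t ht x => ⟨?_, ?_⟩⟩
  · refine (b1 _ _ (h1 t ht x)).trans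
      (mul_le_mul_of_nonneg_right (by nlinarith) (Real.sqrt_nonneg _))
  · rw [A.lap_compU (hs.mem ht) (ps_cd ρ) (A.sm_s0 su t ht)]
    have k1 := b1 (u t x) _ (h2 t ht x)
    have k2 : |deriv (deriv (ps ρ)) (u t x) * H.gam t (u t) (u t) x| ≤
        K * (1 / ρ ^ 2) * √(ps ρ (u t x)) := by
      rw [abs_mul, abs_of_nonneg (A.gam_nonneg t (hs.mem ht) (A.sm_s0 su t ht) x)]
      calc _ ≤ |deriv (deriv (ps ρ)) (u t x)| :=
            mul_le_of_le_one_right (abs_nonneg _) (hg t ht x)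
        _ ≤ _ := (hb ρ hρ _).2.1
        _ = _ := by ring
    have k3 := mul_le_mul_of_nonneg_right hL (Real.sqrt_nonneg (ps ρ (u t x)))
    refine (abs_add_le _ _).trans ?_
    nlinarith
  · refine (b3 t ht x).trans (mul_le_mul_of_nonneg_right ?_ (ps_nonneg _ _))
    have : K / ρ ^ 2 = K * (1 / ρ ^ 2) := by ring
    nlinarith
  · have := I.fin t (hs.mem ht)
    refine (measureReal_mono (fun x hx => ?_) (measure_ne_top _ _)).trans (hV t ht)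
    by_contra h
    exact hx (ps_zero hρ (not_lt.1 h))
  · refine (b1 _ _ (h1 t ht x)).trans ?_
    rw [mul_div_assoc]
    exact mul_le_of_le_one_right x1 (q1 _)
  · exact (b3 t ht x).trans (mul_le_of_le_one_right (by positivity) (ps_le_one _ _))

/-- the flux through a cutoff on a window of length `≤ θ²` -/
theorem flux_le (A : H.Alg) (I : H.Intg) (hE : H.Evo) (hF : H.Flux) : ∃ C, 0 < C ∧
    ∀ {a b E Λ Γ θ : ℝ} {χ χ' : ℝ → M → ℝ}, H.St a b → H.Sm a b χ → HasDt a b χ χ' → 0 < θ →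
    0 ≤ Λ → 0 ≤ Γ → (∀ t ∈ Icc a b, ∀ x, |χ' t x| ≤ Λ) →
    (∀ t ∈ Icc a b, ∀ x, H.gam t (χ t) (χ t) x ≤ Γ ^ 2) →
    (∀ t ∈ Icc a b, ∫ x, H.N 0 t x ∂H.vol t ≤ E) →
    (∫ t in a..b, ∫ x, (H.Q 0 t x ^ 2 + H.Q 1 t x) ∂H.vol t ≤ E) →
    ∀ s ∈ Icc a b, ∀ t ∈ Icc a b, |t - s| ≤ θ ^ 2 →
      |∫ x, χ t x * H.Pf t x ∂H.vol t - ∫ x, χ s x * H.Pf s x ∂H.vol s| ≤
        C * E * (Λ * θ ^ 2 + Γ * θ) := by
  obtain ⟨C, hC, hF⟩ := hF
  refine ⟨16 + 2 * C, by positivity,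
    fun {a b E Λ Γ θ χ χ'} hs sχ dχ hθ hΛ hΓ b1 b2 hN hQ => ?_⟩
  have hE0 : 0 ≤ E := (integral_nonneg fun x => hE.N_nonneg 0 a
    (hs.mem (left_mem_Icc.2 hs.2.1.le)) x).trans (hN a (left_mem_Icc.2 hs.2.1.le))
  suffices h : ∀ s ∈ Icc a b, ∀ t ∈ Icc a b, s ≤ t → t - s ≤ θ ^ 2 →
      |∫ x, χ t x * H.Pf t x ∂H.vol t - ∫ x, χ s x * H.Pf s x ∂H.vol s| ≤
        (16 + 2 * C) * E * (Λ * θ ^ 2 + Γ * θ) by
    intro s hs' t ht hst
    rcases le_total s t with k | k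
    · exact h s hs' t ht k ((le_abs_self _).trans hst)
    · rw [abs_sub_comm]
      exact h t ht s hs' k ((le_abs_self _).trans (by rwa [abs_sub_comm]))
  intro s hs' t ht hst hθ'
  refine (hF hs sχ dχ s t hs'.1 hst ht.2).trans ?_
  have usub : uIcc s t ⊆ Icc a b := uIcc_subset_Icc hs' ht
  have sS := A.sm_add (A.sm_pow 2 (A.sm_Q 0 hs)) (A.sm_Q 1 hs)
  have cS := A.int_cont I hs sS
  have j1 := (((ap_flux A hE hs C sχ dχ).int_cont A I hs).mono usub).intervalIntegrable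
    (μ := volume)
  have j2 := (cS.mono usub).intervalIntegrable (μ := volume)
  have n1 : ∀ σ ∈ Icc a b, 0 ≤ ∫ x, (H.Q 0 σ x ^ 2 + H.Q 1 σ x) ∂H.vol σ := fun σ hσ =>
    integral_nonneg fun x => add_nonneg (sq_nonneg _) (hE.Q_nonneg 1 σ (hs.mem hσ) x)
  have g1 : ∫ σ in s..t, ∫ x, (|χ' σ x| * |H.Pf σ x| +
      C * (√(H.gam σ (χ σ) (χ σ) x) * √(H.N 0 σ x) * √(H.Q 1 σ x))) ∂H.vol σ ≤
      ∫ σ in s..t, ((16 * Λ + C * Γ / θ) * E +
        C * Γ * θ * ∫ x, (H.Q 0 σ x ^ 2 + H.Q 1 σ x) ∂H.vol σ) := by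
    refine intervalIntegral.integral_mono_on hst j1
      (intervalIntegrable_const.add (j2.const_mul _)) fun σ hσ => ?_
    have hσ' : σ ∈ Icc a b := ⟨hs'.1.trans hσ.1, hσ.2.trans ht.2⟩
    have hm := hs.mem hσ'
    have i1 := A.integrable I hm (A.s0_N hm 0)
    have i2 := A.integrable I hm (A.sm_s0 sS σ hσ')
    have key := int_comb (16 * Λ + C * Γ / θ) (C * Γ * θ) 0 0
      (A.integrable_cont I hm ((ap_flux A hE hs C sχ dχ).cont A hσ')) i1 i2 i1 i1 fun x => by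
        have n0 := hE.N_nonneg 0 σ hm x
        have q1 := hE.Q_nonneg 1 σ hm x
        have k1 : |χ' σ x| * |H.Pf σ x| ≤ Λ * (16 * H.N 0 σ x) :=
          mul_le_mul (b1 σ hσ' x) (abs_Pf_le hE hm x) (abs_nonneg _) hΛ
        have k2 : √(H.gam σ (χ σ) (χ σ) x) ≤ Γ := Real.sqrt_le_iff.2 ⟨hΓ, b2 σ hσ' x⟩
        have k3 : √(H.N 0 σ x) * √(H.Q 1 σ x) ≤ H.N 0 σ x / θ + θ * H.Q 1 σ x := by
          have y := young_sqrt (C := 1) (f := √(H.Q 1 σ x)) n0 hθ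
          rw [Real.sq_sqrt q1, one_mul] at y
          have : 1 ^ 2 / (4 * θ) * H.N 0 σ x ≤ H.N 0 σ x / θ := by
            rw [one_pow, div_mul_eq_mul_div, one_mul]
            exact div_le_div_of_nonneg_left n0 hθ (by linarith)
          linarith
        have k4 : √(H.gam σ (χ σ) (χ σ) x) * √(H.N 0 σ x) * √(H.Q 1 σ x) ≤
            Γ * (H.N 0 σ x / θ + θ * H.Q 1 σ x) := by
          rw [mul_assoc]; exact mul_le_mul k2 k3 (by positivity) hΓ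
        have k5 := mul_le_mul_of_nonneg_left k4 hC.le
        have k6 : 0 ≤ C * Γ * θ * H.Q 0 σ x ^ 2 := by positivity
        have e : C * (Γ * (H.N 0 σ x / θ + θ * H.Q 1 σ x)) =
            C * Γ / θ * H.N 0 σ x + C * Γ * θ * H.Q 1 σ x := by ring
        nlinarith
    have := mul_le_mul_of_nonneg_left (hN σ hσ') (show 0 ≤ 16 * Λ + C * Γ / θ by positivity)
    linarith
  rw [intervalIntegral.integral_add intervalIntegrable_const (j2.const_mul _),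
    intervalIntegral.integral_const, intervalIntegral.integral_const_mul, smul_eq_mul] at g1
  have g2 : ∫ σ in s..t, ∫ x, (H.Q 0 σ x ^ 2 + H.Q 1 σ x) ∂H.vol σ ≤ E := by
    refine le_trans ?_ hQ
    refine intervalIntegral.integral_mono_interval hs'.1 hst ht.2 ?_
      ((cS.mono (uIcc_of_le hs.2.1.le).le).intervalIntegrable)
    refine (ae_restrict_iff' measurableSet_Ioc).2 (Filter.Eventually.of_forall fun σ hσ => ?_)
    exact n1 σ (Ioc_subset_Icc_self hσ)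
  have g3 := mul_le_mul_of_nonneg_left g2 (show 0 ≤ C * Γ * θ by positivity)
  have g4 : (t - s) * ((16 * Λ + C * Γ / θ) * E) ≤ θ ^ 2 * ((16 * Λ + C * Γ / θ) * E) :=
    mul_le_mul_of_nonneg_right hθ' (by positivity)
  have e : θ ^ 2 * ((16 * Λ + C * Γ / θ) * E) = 16 * E * (Λ * θ ^ 2) + C * E * (Γ * θ) := by
    field_simp
  have p1 : 0 ≤ C * E * (Λ * θ ^ 2) := by positivity
  have p2 : 0 ≤ E * (Γ * θ) := by positivity
  nlinarith

end D

end Crest.Agent.N207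

end
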