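import Crest.Agent.N207.D.Loc

/-!
# Row 207, block D: continuity in time of non-smooth integrands, and the Gauss-Bonnet flux
-/

set_option autoImplicit false
set_option linter.dupNamespace false
set_option linter.unusedSectionVars false
open Set MeasureTheory
open scoped ContDiff

noncomputable section

namespace Crest.Agent.N207

namespace D

variable {M : Type*} [TopologicalSpace M] [CompactSpace M] [MeasurableSpace M]
  [OpensMeasurableSpace M] {H : HC M}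

/-- uniform limits of smooth space-time functions -/
def Ap (H : HC M) (a b : ℝ) (G : ℝ → M → ℝ) : Prop :=
  ∀ δ > 0, ∃ F, H.Sm a b F ∧ ∀ t ∈ Icc a b, ∀ x, |G t x - F t x| ≤ δ

variable {a b : ℝ} {F G : ℝ → M → ℝ}

theorem Ap.of_sm (h : H.Sm a b F) : Ap H a b F := fun δ hδ => ⟨F, h, fun t _ x => by simpa using hδ.le⟩

theorem Ap.add (A : H.Alg) (hF : Ap H a b F) (hG : Ap H a b G) :
    Ap H a b fun t x => F t x + G t x := fun δ hδ => by
  obtain ⟨F1, s1, h1⟩ := hF (δ / 2) (by positivity)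
  obtain ⟨G1, s2, h2⟩ := hG (δ / 2) (by positivity)
  refine ⟨_, A.sm_add s1 s2, fun t ht x => ?_⟩
  have k1 := abs_le.1 (h1 t ht x)
  have k2 := abs_le.1 (h2 t ht x)
  rw [abs_le]; constructor <;> linarith [k1.1, k1.2, k2.1, k2.2]

theorem Ap.bdd (A : H.Alg) (hF : Ap H a b F) : ∃ K, 0 ≤ K ∧ ∀ t ∈ Icc a b, ∀ x, |F t x| ≤ K := by
  obtain ⟨F1, s1, h1⟩ := hF 1 one_pos
  obtain ⟨K, hK, h2⟩ := A.sm_bdd s1
  refine ⟨K + 1, by linarith, fun t ht x => ?_⟩
  have k1 := abs_le.1 (h1 t ht x)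
  have k2 := abs_le.1 (h2 t ht x)
  rw [abs_le]; constructor <;> linarith [k1.1, k1.2, k2.1, k2.2]

theorem Ap.mul (A : H.Alg) (hF : Ap H a b F) (hG : Ap H a b G) :
    Ap H a b fun t x => F t x * G t x := fun δ hδ => by
  obtain ⟨K1, p1, b1⟩ := hF.bdd A
  obtain ⟨K2, p2, b2⟩ := hG.bdd A
  set η := min 1 (δ / (K1 + K2 + 1))
  have hη : 0 < η := lt_min one_pos (by positivity)
  have hη1 : η ≤ 1 := min_le_left _ _
  have hη2 : η * (K1 + K2 + 1) ≤ δ := (le_div_iff₀ (by positivity)).1 (min_le_right _ _)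
  obtain ⟨F1, s1, h1⟩ := hF η hη
  obtain ⟨G1, s2, h2⟩ := hG η hη
  refine ⟨_, A.sm_mul s1 s2, fun t ht x => ?_⟩
  have e : F t x * G t x - F1 t x * G1 t x = F t x * (G t x - G1 t x) +
      (F t x - F1 t x) * G t x - (F t x - F1 t x) * (G t x - G1 t x) := by ring
  rw [e]
  have k1 : |F t x * (G t x - G1 t x)| ≤ K1 * η := by
    rw [abs_mul]; exact mul_le_mul (b1 t ht x) (h2 t ht x) (abs_nonneg _) p1
  have k2 : |(F t x - F1 t x) * G t x| ≤ η * K2 := by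
    rw [abs_mul]; exact mul_le_mul (h1 t ht x) (b2 t ht x) (abs_nonneg _) hη.le
  have k3 : |(F t x - F1 t x) * (G t x - G1 t x)| ≤ η * 1 := by
    rw [abs_mul]; exact mul_le_mul (h1 t ht x) ((h2 t ht x).trans hη1) (abs_nonneg _) hη.le
  have k1 := abs_le.1 k1
  have k2 := abs_le.1 k2
  have k3 := abs_le.1 k3
  rw [abs_le]; constructor <;> nlinarith [k1.1, k1.2, k2.1, k2.2, k3.1, k3.2]

theorem Ap.cmul (A : H.Alg) (c : ℝ) (hF : Ap H a b F) : Ap H a b fun t x => c * F t x :=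
  (Ap.of_sm (A.sm_const c)).mul A hF

theorem Ap.sqrt (A : H.Alg) (hF : H.Sm a b F) (h0 : ∀ t ∈ Icc a b, ∀ x, 0 ≤ F t x) :
    Ap H a b fun t x => √(F t x) := fun δ hδ => by
  refine ⟨_, A.sm_sqrt (A.sm_add hF (A.sm_const (δ ^ 2)))
    (fun t ht x => by have := h0 t ht x; positivity), fun t ht x => ?_⟩
  have p := h0 t ht x
  have k1 : √(F t x) ≤ √(F t x + δ ^ 2) := Real.sqrt_le_sqrt (by nlinarith)
  have k2 : √(F t x + δ ^ 2) ≤ √(F t x) + δ := by
    rw [Real.sqrt_le_left (by positivity)]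
    nlinarith [Real.sq_sqrt p, Real.sqrt_nonneg (F t x)]
  rw [abs_le]; constructor <;> linarith

theorem Ap.abs (A : H.Alg) (hF : H.Sm a b F) : Ap H a b fun t x => |F t x| := by
  have := Ap.sqrt A (A.sm_pow 2 hF) fun t _ x => sq_nonneg _
  simpa only [Real.sqrt_sq_eq_abs] using this

theorem Ap.cont (A : H.Alg) (hG : Ap H a b G) {t : ℝ} (ht : t ∈ Icc a b) : Continuous (G t) := by
  refine continuous_of_uniform_approx_of_continuous fun u hu => ?_
  obtain ⟨ε, hε, h⟩ := Metric.mem_uniformity_dist.1 hu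
  obtain ⟨F, sF, hF⟩ := hG (ε / 2) (by positivity)
  refine ⟨F t, A.s0_cont (A.sm_s0 sF t ht), fun y => h ?_⟩
  rw [Real.dist_eq]; linarith [hF t ht y]

theorem Ap.int_cont (A : H.Alg) (I : H.Intg) (hs : H.St a b) (hG : Ap H a b G) :
    ContinuousOn (fun t => ∫ x, G t x ∂H.vol t) (Icc a b) := by
  obtain ⟨V, hV⟩ := isCompact_Icc.exists_bound_of_continuousOn (A.int_cont I hs (A.sm_const 1))
  refine continuousOn_of_uniform_approx_of_continuousOn fun u hu => ?_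
  obtain ⟨ε, hε, h⟩ := Metric.mem_uniformity_dist.1 hu
  have hV0 : 0 ≤ V := (norm_nonneg _).trans (hV a (left_mem_Icc.2 hs.2.1.le))
  obtain ⟨F, sF, hF⟩ := hG (ε / (V + 1)) (by positivity)
  refine ⟨_, A.int_cont I hs sF, fun t ht => h ?_⟩
  have hm := hs.mem ht
  have := I.fin t hm
  have i1 := A.integrable_cont I hm (hG.cont A ht)
  have i2 := A.integrable I hm (A.sm_s0 sF t ht)
  rw [Real.dist_eq, ← integral_sub i1 i2]
  have k1 := norm_integral_le_of_norm_le_const (μ := H.vol t)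
    (f := fun x => G t x - F t x) (C := ε / (V + 1)) (Filter.Eventually.of_forall (hF t ht))
  have k2 := hV t ht
  simp only [integral_const, smul_eq_mul, mul_one, Real.norm_eq_abs] at k1 k2
  have k3 : (H.vol t).real univ ≤ V := (le_abs_self _).trans k2
  have k4 : ε / (V + 1) * (H.vol t).real univ ≤ ε / (V + 1) * V :=
    mul_le_mul_of_nonneg_left k3 (by positivity)
  have k5 : ε / (V + 1) * V < ε := by
    rw [div_mul_eq_mul_div, div_lt_iff₀ (by positivity)]; nlinarith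
  linarith

theorem abs_sub_le_int {φ φ' g : ℝ → ℝ} {s t : ℝ} (hst : s ≤ t)
    (hd : ∀ σ ∈ Icc s t, HasDerivWithinAt φ (φ' σ) (Icc s t) σ) (hg : ContinuousOn g (Icc s t))
    (h : ∀ σ ∈ Icc s t, |φ' σ| ≤ g σ) : |φ t - φ s| ≤ ∫ σ in s..t, g σ := by
  have h1 := int_le_of_deriv (c := 0) hst hd hg.neg fun σ hσ => by
    have := (abs_le.1 (h σ (Ioo_subset_Icc_self hσ))).2
    simpa using this
  have h2 := int_le_of_deriv (φ := fun σ => -φ σ) (c := 0) hst (fun σ hσ => (hd σ hσ).neg) hg.neg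
    fun σ hσ => by
      have := (abs_le.1 (h σ (Ioo_subset_Icc_self hσ))).1
      simp only [Pi.neg_apply]; linarith
  simp only [Pi.neg_apply, intervalIntegral.integral_neg, zero_mul, add_zero] at h1 h2
  rw [abs_le]; constructor <;> linarith

theorem ap_flux (A : H.Alg) (hE : H.Evo) (hs : H.St a b) {χ χ' : ℝ → M → ℝ} (C : ℝ)
    (sχ : H.Sm a b χ) (dχ : HasDt a b χ χ') : Ap H a b fun σ x => |χ' σ x| * |H.Pf σ x| +
      C * (√(H.gam σ (χ σ) (χ σ) x) * √(H.N 0 σ x) * √(H.Q 1 σ x)) :=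
  ((Ap.abs A (A.sm_of_dt hs.2.1 sχ dχ)).mul A (Ap.abs A (A.sm_Pf hs))).add A
    ((((Ap.sqrt A (A.sm_gam hs sχ sχ) fun t ht x =>
      A.gam_nonneg t (hs.mem ht) (A.sm_s0 sχ t ht) x).mul A
      (Ap.sqrt A (A.sm_N 0 hs) fun t ht x => hE.N_nonneg 0 t (hs.mem ht) x)).mul A
      (Ap.sqrt A (A.sm_Q 1 hs) fun t ht x => hE.Q_nonneg 1 t (hs.mem ht) x)).cmul A C)

theorem flux_of (A : H.Alg) (I : H.Intg) (hE : H.Evo) (G : H.GBV) : H.Flux := by
  obtain ⟨C, hC, hG⟩ := G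
  refine ⟨C + 1, by linarith, fun {a b χ χ'} hs sχ dχ s t k1 k2 k3 => ?_⟩
  obtain ⟨P', sP', dP⟩ := A.sm_dt hs.2.1 (A.sm_Pf hs)
  have sub : Icc s t ⊆ Icc a b := Icc_subset_Icc k1 k3
  have ap := ap_flux A hE hs (C + 1) sχ dχ
  refine abs_sub_le_int (φ := fun σ => ∫ x, χ σ x * H.Pf σ x ∂H.vol σ) k2
    (fun σ hσ => (I.int_dt hs (A.sm_mul sχ (A.sm_Pf hs)) (dχ.mul dP) σ (sub hσ)).mono sub)
    ((ap.int_cont A I hs).mono sub) fun σ hσ => ?_
  have ht := sub hσ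
  have hm := hs.mem ht
  have s0 := A.sm_s0 sχ σ ht
  have s1 := A.sm_s0 (A.sm_of_dt hs.2.1 sχ dχ) σ ht
  have sP := A.sm_s0 (A.sm_Pf hs) σ ht
  have i1 := A.integrable I hm (A.s0_mul s1 sP)
  have i2 := A.integrable I hm
    (A.s0_mul s0 (A.s0_sub (A.sm_s0 sP' σ ht) (A.s0_mul (A.s0_R hm) sP)))
  have e : ∫ x, (χ' σ x * H.Pf σ x + χ σ x * P' σ x - H.R σ x * (χ σ x * H.Pf σ x)) ∂H.vol σ =
      ∫ x, χ' σ x * H.Pf σ x ∂H.vol σ +
        ∫ x, χ σ x * (P' σ x - H.R σ x * H.Pf σ x) ∂H.vol σ := by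
    rw [← integral_add i1 i2]; congr 1; funext x; ring
  have c1 : Continuous fun x => |χ' σ x| * |H.Pf σ x| :=
    (A.s0_cont s1).abs.mul (A.s0_cont sP).abs
  have c2 : Continuous fun x => √(H.gam σ (χ σ) (χ σ) x) * √(H.N 0 σ x) * √(H.Q 1 σ x) :=
    ((A.s0_cont (A.s0_gam hm s0 s0)).sqrt.mul (A.s0_cont (A.s0_N hm 0)).sqrt).mul
      (A.s0_cont (A.s0_Q hm 1)).sqrt
  have j1 := A.integrable_cont I hm c1
  have j2 := A.integrable_cont I hm c2
  rw [e, integral_add j1 (j2.const_mul _), integral_const_mul]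
  have b1 : |∫ x, χ' σ x * H.Pf σ x ∂H.vol σ| ≤ ∫ x, |χ' σ x| * |H.Pf σ x| ∂H.vol σ := by
    simpa only [abs_mul] using abs_integral_le_integral_abs (μ := H.vol σ)
      (f := fun x => χ' σ x * H.Pf σ x)
  have b2 := hG hs dP σ ht s0
  have b3 : 0 ≤ ∫ x, √(H.gam σ (χ σ) (χ σ) x) * √(H.N 0 σ x) * √(H.Q 1 σ x) ∂H.vol σ :=
    integral_nonneg fun x => by positivity
  refine (abs_add_le _ _).trans ?_
  nlinarith

end D

namespace HC

variable {M : Type*} [TopologicalSpace M] [CompactSpace M] [MeasurableSpace M]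
  [OpensMeasurableSpace M] {H : HC M}

theorem flux (h : H.Ok) : H.Flux := D.flux_of h.alg h.int h.evo h.gbv

theorem dOut (h : H.Ok) : H.DOut := ⟨dGlob h, dLoc h, flux h⟩

end HC

end Crest.Agent.N207

end
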