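import Crest.Agent.N207.D.Quot
import Crest.Agent.N207.C.Max

/-!
# Row 207, block D: global integral bounds (Gauss-Bonnet + Simon's quotient)
-/

set_option autoImplicit false
set_option linter.dupNamespace false
set_option linter.unusedSectionVars false
open Set MeasureTheory
open scoped ContDiff

noncomputable section

namespace Crest.Agent.N207

namespace HC

variable {M : Type*} [TopologicalSpace M] [MeasurableSpace M] (H : HC M)

/-- the energy bounds of block D on `[t0, T)` -/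
structure En (t0 E : ℝ) : Prop where
  nonneg : 0 ≤ E
  N0 : ∀ t ∈ Ico t0 H.T, ∫ x, H.N 0 t x ∂H.vol t ≤ E
  Q0 : ∀ a b, t0 ≤ a → a ≤ b → b < H.T → ∫ s in a..b, ∫ x, H.Q 0 s x ^ 2 ∂H.vol s ≤ E
  Q1 : ∀ a b, t0 ≤ a → a ≤ b → b < H.T → ∫ s in a..b, ∫ x, H.Q 1 s x ∂H.vol s ≤ E

end HC

namespace D

theorem prim {g : ℝ → ℝ} {a b : ℝ} (hg : ContinuousOn g (Icc a b)) {t : ℝ} (ht : t ∈ Icc a b) :
    HasDerivWithinAt (fun u => ∫ s in a..u, g s) (g t) (Icc a b) t := by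
  have : Fact (t ∈ Icc a b) := ⟨ht⟩
  refine intervalIntegral.integral_hasDerivWithinAt_right
    ((hg.mono (uIcc_subset_Icc (left_mem_Icc.2 (ht.1.trans ht.2)) ht)).intervalIntegrable) ?_
    (hg t ht)
  exact hg.stronglyMeasurableAtFilter_nhdsWithin measurableSet_Icc t

/-- `φ' ≤ c - g` integrates to `φ b + ∫ g ≤ φ a + c (b - a)` -/
theorem int_le_of_deriv {φ φ' g : ℝ → ℝ} {a b c : ℝ} (hab : a ≤ b)
    (hd : ∀ t ∈ Icc a b, HasDerivWithinAt φ (φ' t) (Icc a b) t) (hg : ContinuousOn g (Icc a b))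
    (h : ∀ t ∈ Ioo a b, φ' t ≤ c - g t) : φ b + ∫ s in a..b, g s ≤ φ a + c * (b - a) := by
  have h1 : AntitoneOn (fun t => φ t + (∫ s in a..t, g s) - c * (t - a)) (Icc a b) := by
    refine anti_of_deriv (φ' := fun t => φ' t + g t - c) (fun t ht => ?_) fun t ht => ?_
    · refine ((hd t ht).add (prim hg ht)).sub ?_
      simpa using (((hasDerivAt_id t).sub_const a).const_mul c).hasDerivWithinAt
    · linarith [h t ht]
  have := h1 (left_mem_Icc.2 hab) (right_mem_Icc.2 hab) hab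
  simp only [intervalIntegral.integral_same, sub_self, mul_zero] at this
  linarith

theorem gronw {φ φ' : ℝ → ℝ} {a b α β : ℝ} (hab : a ≤ b) (hα : 0 ≤ α) (hβ : 1 ≤ β)
    (hd : ∀ t ∈ Icc a b, HasDerivWithinAt φ (φ' t) (Icc a b) t)
    (h : ∀ t ∈ Ioo a b, φ' t ≤ α + β * φ t) :
    φ b + α ≤ (φ a + α) * Real.exp (β * (b - a)) := by
  have h1 : AntitoneOn (fun t => (φ t + α) * Real.exp (-(β * (t - a)))) (Icc a b) := by
    refine anti_of_deriv (φ' := fun t => φ' t * Real.exp (-(β * (t - a))) +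
      (φ t + α) * (Real.exp (-(β * (t - a))) * (-β))) (fun t ht => ?_) fun t ht => ?_
    · refine ((hd t ht).add_const α).mul ?_
      have : HasDerivAt (fun t : ℝ => -(β * (t - a))) (-β) t := by
        have := (((hasDerivAt_id t).sub_const a).const_mul β).neg
        rw [mul_one] at this
        exact this
      exact this.exp.hasDerivWithinAt
    · have e := Real.exp_pos (-(β * (t - a)))
      have : φ' t - β * (φ t + α) ≤ 0 := by nlinarith [h t ht]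
      nlinarith
  have h2 := h1 (left_mem_Icc.2 hab) (right_mem_Icc.2 hab) hab
  simp only [sub_self, mul_zero, neg_zero, Real.exp_zero, mul_one] at h2
  have e := Real.exp_pos (β * (b - a))
  have := mul_le_mul_of_nonneg_right h2 e.le
  rwa [mul_assoc, ← Real.exp_add, neg_add_cancel, Real.exp_zero, mul_one] at this

theorem int_comb {X : Type*} [MeasurableSpace X] {μ : Measure X} {g f1 f2 f3 f4 : X → ℝ}
    (c1 c2 c3 c4 : ℝ) (ig : Integrable g μ) (i1 : Integrable f1 μ) (i2 : Integrable f2 μ)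
    (i3 : Integrable f3 μ) (i4 : Integrable f4 μ)
    (h : ∀ x, g x ≤ c1 * f1 x + c2 * f2 x + c3 * f3 x + c4 * f4 x) :
    ∫ x, g x ∂μ ≤ c1 * ∫ x, f1 x ∂μ + c2 * ∫ x, f2 x ∂μ + c3 * ∫ x, f3 x ∂μ +
      c4 * ∫ x, f4 x ∂μ := by
  have j1 : Integrable (fun x => c1 * f1 x + c2 * f2 x) μ := (i1.const_mul _).add (i2.const_mul _)
  have j2 : Integrable (fun x => c1 * f1 x + c2 * f2 x + c3 * f3 x) μ := j1.add (i3.const_mul _)
  have j3 : Integrable (fun x => c1 * f1 x + c2 * f2 x + c3 * f3 x + c4 * f4 x) μ :=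
    j2.add (i4.const_mul _)
  refine (integral_mono ig j3 h).trans_eq ?_
  rw [integral_add j2 (i4.const_mul _), integral_add j1 (i3.const_mul _),
    integral_add (i1.const_mul _) (i2.const_mul _), integral_const_mul, integral_const_mul,
    integral_const_mul, integral_const_mul]

variable {M : Type*} [TopologicalSpace M] [CompactSpace M] [MeasurableSpace M]
  [OpensMeasurableSpace M] {H : HC M}

theorem exists_K (hE : H.Evo) : ∃ K, 0 ≤ K ∧ ∀ t ∈ Ioo 0 H.T, ∀ x, |H.R t x| ≤ K := by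
  obtain ⟨K, hK⟩ := hE.R_bd
  exact ⟨max K 0, le_max_right _ _, fun t ht x => (hK t ht x).trans (le_max_left _ _)⟩

theorem Pf_le (hE : H.Evo) {t : ℝ} (ht : t ∈ Ioo 0 H.T) (x : M) : H.Pf t x ≤ H.N 0 t x := by
  have := hE.R_sq t ht x
  unfold HC.Pf; linarith

theorem N_le_Pf (t : ℝ) (x : M) : H.N 0 t x ≤ H.Pf t x + 4 * H.Q 0 t x := by
  unfold HC.Pf; nlinarith [sq_nonneg (H.R t x)]

theorem abs_Pf_le (hE : H.Evo) {t : ℝ} (ht : t ∈ Ioo 0 H.T) (x : M) :
    |H.Pf t x| ≤ 16 * H.N 0 t x := by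
  have h1 := Pf_le hE ht x
  have h2 := hE.Q_le 0 t ht x
  have h3 := hE.N_nonneg 0 t ht x
  have h4 := N_le_Pf (H := H) t x
  rw [abs_le]; constructor <;> linarith

/-- the Gauss-Bonnet integral is constant in time -/
theorem int_Pf (A : H.Alg) (I : H.Intg) (G : H.GBV) {a b : ℝ} (hs : H.St a b) {t : ℝ}
    (ht : t ∈ Icc a b) : ∫ x, H.Pf t x ∂H.vol t = ∫ x, H.Pf a x ∂H.vol a := by
  obtain ⟨C, -, hG⟩ := G
  obtain ⟨P', -, hP⟩ := A.sm_dt hs.2.1 (A.sm_Pf hs)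
  have hd : ∀ s ∈ Icc a b, HasDerivWithinAt (fun s => ∫ x, H.Pf s x ∂H.vol s) 0 (Icc a b) s := by
    intro s hs'
    have h1 := I.int_dt hs (A.sm_Pf hs) hP s hs'
    have h2 := hG hs hP s hs' (A.s0_const 1)
    simp only [one_mul, A.gam_const (hs.mem hs') 1 (A.s0_const 1), Real.sqrt_zero, zero_mul,
      integral_zero, mul_zero, abs_nonpos_iff] at h2
    rwa [h2] at h1
  have ha := left_mem_Icc.2 hs.2.1.le
  exact le_antisymm (anti_of_deriv hd (fun _ _ => le_rfl) ha ht ht.1)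
    (mono_of_deriv hd (fun _ _ => le_rfl) ha ht ht.1)

theorem young_sqrt {C n f l : ℝ} (hn : 0 ≤ n) (hl : 0 < l) :
    C * √n * f ≤ l * f ^ 2 + C ^ 2 / (4 * l) * n := by
  have h1 : √n ^ 2 = n := Real.sq_sqrt hn
  have h2 : C ^ 2 / (4 * l) * n = (C * √n) ^ 2 / (4 * l) := by rw [mul_pow, h1]; ring
  rw [h2]
  have h3 : 0 ≤ (2 * l * f - C * √n) ^ 2 / (4 * l) := by positivity
  have h4 : (2 * l * f - C * √n) ^ 2 / (4 * l) =
      l * f ^ 2 + (C * √n) ^ 2 / (4 * l) - C * √n * f := by field_simp; ring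
  linarith

/-- derivative bound for `∫ f` -/
theorem fq_deriv (A : H.Alg) (I : H.Intg) (hE : H.Evo) : ∃ C, 0 ≤ C ∧ ∀ {K a b : ℝ}, 0 ≤ K →
    (∀ t ∈ Ioo 0 H.T, ∀ x, |H.R t x| ≤ K) → H.St a b → ∃ φ' : ℝ → ℝ,
      (∀ t ∈ Icc a b, HasDerivWithinAt (fun s => ∫ x, fq H (K + 1) s x ∂H.vol s) (φ' t)
        (Icc a b) t) ∧
      ∀ t ∈ Icc a b, φ' t ≤ C * (∫ x, H.Pf t x ∂H.vol t) +
        (C * (4 * (2 * K + 1)) + K) * (∫ x, fq H (K + 1) t x ∂H.vol t) -
          ∫ x, fq H (K + 1) t x ^ 2 ∂H.vol t := by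
  obtain ⟨C, -, hq⟩ := dt_fq A hE
  refine ⟨C ^ 2 / 4, by positivity, fun {K a b} hK0 hK hs => ?_⟩
  have hc : ∀ t ∈ Ioo 0 H.T, ∀ x, 1 ≤ H.R t x + (K + 1) := fun t ht x => by
    linarith [(abs_le.1 (hK t ht x)).1]
  have sf := sm_fq A hs hc
  obtain ⟨f', sf', hf⟩ := A.sm_dt hs.2.1 sf
  refine ⟨_, I.int_dt hs sf hf, fun t ht => ?_⟩
  have hm := hs.mem ht
  have s1 := A.sm_s0 sf t ht
  have i1 := A.integrable I hm s1
  have i2 := A.integrable I hm (A.s0_pow 2 s1)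
  have i3 := A.integrable I hm (A.sm_s0 (A.sm_Pf hs) t ht)
  have i4 := A.integrable I hm (A.s0_lap hm s1)
  refine (int_comb 1 (C ^ 2 / 4) (C ^ 2 / 4 * (4 * (2 * K + 1)) + K) (-1)
    (A.integrable I hm (A.s0_sub (A.sm_s0 sf' t ht) (A.s0_mul (A.s0_R hm) s1))) i4 i3 i1 i2
    fun x => ?_).trans_eq (by rw [I.int_lap t hm s1]; ring)
  have h1 := hq hc hs hf t ht x
  have h2 := young_sqrt (C := C) (f := fq H (K + 1) t x) (hE.N_nonneg 0 t hm x) one_pos
  have h3 := N_le_Pf (H := H) t x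
  have h4 := Q_eq_fq (hc t hm x)
  have h5 := fq_nonneg hE hm (hc t hm x)
  have h6 := abs_le.1 (hK t hm x)
  have h7 : H.Q 0 t x ≤ (2 * K + 1) * fq H (K + 1) t x := by rw [h4]; nlinarith [h6.2]
  have h8 : C ^ 2 / (4 * 1) * H.N 0 t x ≤
      C ^ 2 / 4 * (H.Pf t x + 4 * ((2 * K + 1) * fq H (K + 1) t x)) := by
    rw [mul_one]; exact mul_le_mul_of_nonneg_left (by linarith) (by positivity)
  have h9 : -(H.R t x * fq H (K + 1) t x) ≤ K * fq H (K + 1) t x := by nlinarith [h6.1]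
  nlinarith

/-- derivative bound for `∫ |Ric|²` -/
theorem Q0_deriv (A : H.Alg) (I : H.Intg) (hE : H.Evo) : ∃ C, 0 ≤ C ∧ ∀ {K a b : ℝ},
    (∀ t ∈ Ioo 0 H.T, ∀ x, |H.R t x| ≤ K) → H.St a b → ∃ φ' : ℝ → ℝ,
      (∀ t ∈ Icc a b, HasDerivWithinAt (fun s => ∫ x, H.Q 0 s x ∂H.vol s) (φ' t) (Icc a b) t) ∧
      ∀ t ∈ Icc a b, φ' t ≤ (C + 4 * K) * (∫ x, H.N 0 t x ∂H.vol t) -
        (2 * (∫ x, H.Q 1 t x ∂H.vol t) - ∫ x, H.Q 0 t x ^ 2 ∂H.vol t) := by
  obtain ⟨C, -, hq⟩ := dt_Q0 hE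
  refine ⟨C ^ 2 / 4, by positivity, fun {K a b} hK hs => ?_⟩
  have sf := A.sm_Q 0 hs
  obtain ⟨f', sf', hf⟩ := A.sm_dt hs.2.1 sf
  refine ⟨_, I.int_dt hs sf hf, fun t ht => ?_⟩
  have hm := hs.mem ht
  have s1 := A.s0_Q hm 0
  have i1 := A.integrable I hm (A.s0_Q hm 1)
  have i2 := A.integrable I hm (A.s0_pow 2 s1)
  have i3 := A.integrable I hm (A.s0_N hm 0)
  have i4 := A.integrable I hm (A.s0_lap hm s1)
  refine (int_comb 1 (C ^ 2 / 4 + 4 * K) (-2) 1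
    (A.integrable I hm (A.s0_sub (A.sm_s0 sf' t ht) (A.s0_mul (A.s0_R hm) s1))) i4 i3 i1 i2
    fun x => ?_).trans_eq (by rw [I.int_lap t hm s1]; ring)
  have h1 := (abs_le.1 (hq hs hf t ht x)).2
  have h2 := young_sqrt (C := C) (f := H.Q 0 t x) (hE.N_nonneg 0 t hm x) one_pos
  have h3 := hE.Q_le 0 t hm x
  have h5 := hE.Q_nonneg 0 t hm x
  have h6 := abs_le.1 (hK t hm x)
  have hK0 : 0 ≤ K := (abs_nonneg _).trans (hK t hm x)
  have h9 : -(H.R t x * H.Q 0 t x) ≤ K * (4 * H.N 0 t x) := by nlinarith [h6.1]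
  nlinarith

/-- (D2) the energy bounds -/
theorem exists_En (A : H.Alg) (I : H.Intg) (hE : H.Evo) (G : H.GBV) {t0 : ℝ}
    (h0 : t0 ∈ Ioo 0 H.T) : ∃ E, H.En t0 E := by
  obtain ⟨K, hK0, hK⟩ := exists_K hE
  obtain ⟨C, hC, hf⟩ := fq_deriv A I hE
  obtain ⟨C', hC', hq⟩ := Q0_deriv A I hE
  have hc : ∀ t ∈ Ioo 0 H.T, ∀ x, 1 ≤ H.R t x + (K + 1) := fun t ht x => by
    linarith [(abs_le.1 (hK t ht x)).1]
  set P := ∫ x, H.Pf t0 x ∂H.vol t0
  set φ : ℝ → ℝ := fun s => ∫ x, fq H (K + 1) s x ∂H.vol s with hφ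
  set α := C * |P|
  set β := C * (4 * (2 * K + 1)) + K + 1
  have hα : 0 ≤ α := by positivity
  have hβ : 1 ≤ β := by
    have : 0 ≤ C * (4 * (2 * K + 1)) + K := by positivity
    linarith
  have mem : ∀ {t}, t0 ≤ t → t < H.T → t ∈ Ioo 0 H.T := fun h1 h2 => ⟨h0.1.trans_le h1, h2⟩
  have st : ∀ {t}, t0 ≤ t → t < H.T → H.St t0 ((t + H.T) / 2) := fun h1 h2 =>
    ⟨h0.1, by linarith, by linarith⟩
  have hP : ∀ {t}, t0 ≤ t → t < H.T → ∫ x, H.Pf t x ∂H.vol t = P := fun h1 h2 =>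
    int_Pf A I G (st h1 h2) ⟨h1, by linarith⟩
  have φ0 : ∀ {t}, t ∈ Ioo 0 H.T → 0 ≤ φ t := fun ht =>
    integral_nonneg fun x => fq_nonneg hE ht (hc _ ht x)
  -- the differential inequality on a sub-strip
  have key : ∀ {a b}, t0 ≤ a → a < b → b < H.T → ∃ φ' : ℝ → ℝ,
      (∀ t ∈ Icc a b, HasDerivWithinAt φ (φ' t) (Icc a b) t) ∧
      ∀ t ∈ Icc a b, φ' t ≤ α + β * φ t - ∫ x, fq H (K + 1) t x ^ 2 ∂H.vol t := by
    intro a b h1 h2 h3
    obtain ⟨φ', d1, d2⟩ := hf hK0 hK (a := a) (b := b) ⟨h0.1.trans_le h1, h2, h3⟩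
    refine ⟨φ', d1, fun t ht => (d2 t ht).trans ?_⟩
    rw [hP (h1.trans ht.1) (ht.2.trans_lt h3)]
    have := φ0 (mem (h1.trans ht.1) (ht.2.trans_lt h3))
    have h4 : C * P ≤ α := mul_le_mul_of_nonneg_left (le_abs_self P) hC
    have h5 : β * φ t = (C * (4 * (2 * K + 1)) + K) * φ t + φ t := by simp only [β]; ring
    linarith
  set B := (φ t0 + α) * Real.exp (β * H.T)
  have hB0 : 0 ≤ φ t0 + α := add_nonneg (φ0 h0) hα
  have hB : ∀ {t}, t0 ≤ t → t < H.T → φ t ≤ B := by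
    intro t h1 h2
    have e : Real.exp (β * (t - t0)) ≤ Real.exp (β * H.T) :=
      Real.exp_le_exp.2 (mul_le_mul_of_nonneg_left (by linarith [h0.1]) (by linarith))
    have e' := mul_le_mul_of_nonneg_left e hB0
    rcases h1.eq_or_lt with rfl | h1
    · simp only [sub_self, mul_zero, Real.exp_zero, mul_one] at e'; linarith
    obtain ⟨φ', d1, d2⟩ := key le_rfl h1 h2
    have := gronw h1.le hα hβ d1 fun s hs => by
      have h3 := d2 s (Ioo_subset_Icc_self hs)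
      have h4 : 0 ≤ ∫ x, fq H (K + 1) s x ^ 2 ∂H.vol s := integral_nonneg fun x => sq_nonneg _
      linarith
    linarith
  have hBn : 0 ≤ B := (φ0 h0).trans (hB le_rfl h0.2)
  have hQf : ∀ {t}, t ∈ Ioo 0 H.T → ∀ x, H.Q 0 t x ≤ (2 * K + 1) * fq H (K + 1) t x := by
    intro t ht x
    have h5 := fq_nonneg hE ht (hc t ht x)
    rw [Q_eq_fq (hc t ht x)]; nlinarith [(abs_le.1 (hK t ht x)).2]
  have sfq : ∀ {t}, t ∈ Ioo 0 H.T → H.S0 (fq H (K + 1) t) := fun ht => by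
    obtain ⟨a, b, hs, hm⟩ := HC.exists_st ht
    exact A.sm_s0 (sm_fq A hs hc) _ hm
  set E0 := |P| + 4 * ((2 * K + 1) * B)
  have hE0 : 0 ≤ E0 := by positivity
  have hN : ∀ t ∈ Ico t0 H.T, ∫ x, H.N 0 t x ∂H.vol t ≤ E0 := by
    intro t ht
    have hm := mem ht.1 ht.2
    obtain ⟨a, b, hs, hm'⟩ := HC.exists_st hm
    have i1 := A.integrable I hm (A.sm_s0 (A.sm_Pf hs) t hm')
    have i2 := A.integrable I hm (sfq hm)
    have h1 : ∫ x, H.N 0 t x ∂H.vol t ≤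
        ∫ x, (H.Pf t x + 4 * (2 * K + 1) * fq H (K + 1) t x) ∂H.vol t :=
      integral_mono (A.integrable I hm (A.s0_N hm 0)) (i1.add (i2.const_mul _)) fun x => by
        have := N_le_Pf (H := H) t x
        have := hQf hm x
        show H.N 0 t x ≤ _
        linarith
    rw [integral_add i1 (i2.const_mul _), integral_const_mul, hP ht.1 ht.2] at h1
    have h2 := mul_le_mul_of_nonneg_left (hB ht.1 ht.2) (show 0 ≤ 4 * (2 * K + 1) by positivity)
    have := le_abs_self P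
    simp only [E0]; linarith
  set E1 := (2 * K + 1) ^ 2 * (B + (α + β * B) * H.T)
  have hT := A.T_pos
  have hE1 : 0 ≤ E1 := by positivity
  have hQ0 : ∀ a b, t0 ≤ a → a ≤ b → b < H.T →
      ∫ s in a..b, ∫ x, H.Q 0 s x ^ 2 ∂H.vol s ≤ E1 := by
    intro a b h1 h2 h3
    rcases h2.eq_or_lt with rfl | h2
    · simpa using hE1
    have hs : H.St a b := ⟨h0.1.trans_le h1, h2, h3⟩
    obtain ⟨φ', d1, d2⟩ := key h1 h2 h3
    have c1 := A.int_cont I hs (A.sm_pow 2 (sm_fq A hs hc))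
    have c2 := A.int_cont I hs (A.sm_pow 2 (A.sm_Q 0 hs))
    have h4 := int_le_of_deriv (c := α + β * B) h2.le d1 c1 fun s hs' => by
      have h5 := d2 s (Ioo_subset_Icc_self hs')
      have h6 := mul_le_mul_of_nonneg_left (hB (h1.trans hs'.1.le) (hs'.2.trans h3))
        (show 0 ≤ β by linarith)
      linarith
    have h5 : ∫ s in a..b, ∫ x, H.Q 0 s x ^ 2 ∂H.vol s ≤
        ∫ s in a..b, (2 * K + 1) ^ 2 * ∫ x, fq H (K + 1) s x ^ 2 ∂H.vol s := by
      refine intervalIntegral.integral_mono_on h2.le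
        ((c2.mono (uIcc_of_le h2.le).le).intervalIntegrable)
        (((c1.mono (uIcc_of_le h2.le).le).intervalIntegrable).const_mul _) fun s hs' => ?_
      have hm := hs.mem hs'
      rw [← integral_const_mul]
      refine integral_mono (A.integrable I hm (A.s0_pow 2 (A.s0_Q hm 0)))
        ((A.integrable I hm (A.s0_pow 2 (sfq hm))).const_mul _) fun x => ?_
      show H.Q 0 s x ^ 2 ≤ (2 * K + 1) ^ 2 * fq H (K + 1) s x ^ 2
      rw [← mul_pow]
      exact pow_le_pow_left₀ (hE.Q_nonneg 0 s hm x) (hQf hm x) 2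
    rw [intervalIntegral.integral_const_mul] at h5
    refine h5.trans (mul_le_mul_of_nonneg_left ?_ (by positivity))
    have h6 := φ0 (mem (h1.trans h2.le) h3)
    have h7 := hB h1 (h2.trans h3)
    have h8 : (α + β * B) * (b - a) ≤ (α + β * B) * H.T :=
      mul_le_mul_of_nonneg_left (by linarith [hs.1]) (by positivity)
    linarith
  set E2 := 4 * E0 + (C' + 4 * K) * E0 * H.T + E1
  have hE2 : 0 ≤ E2 := by positivity
  have hQ1 : ∀ a b, t0 ≤ a → a ≤ b → b < H.T →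
      ∫ s in a..b, ∫ x, H.Q 1 s x ∂H.vol s ≤ E2 := by
    intro a b h1 h2 h3
    rcases h2.eq_or_lt with rfl | h2
    · simpa using hE2
    have hs : H.St a b := ⟨h0.1.trans_le h1, h2, h3⟩
    obtain ⟨φ', d1, d2⟩ := hq hK hs
    have c1 := A.int_cont I hs (A.sm_Q 1 hs)
    have c2 := A.int_cont I hs (A.sm_pow 2 (A.sm_Q 0 hs))
    have j1 := (c1.mono (uIcc_of_le h2.le).le).intervalIntegrable (μ := volume)
    have j2 := (c2.mono (uIcc_of_le h2.le).le).intervalIntegrable (μ := volume)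
    have h4 := int_le_of_deriv (c := (C' + 4 * K) * E0) h2.le d1
      ((continuousOn_const.mul c1).sub c2) fun s hs' => by
        have h5 := d2 s (Ioo_subset_Icc_self hs')
        have h6 := mul_le_mul_of_nonneg_left (hN s ⟨h1.trans hs'.1.le, hs'.2.trans h3⟩)
          (show 0 ≤ C' + 4 * K by positivity)
        show φ' s ≤ _ - (2 * _ - _)
        linarith
    simp only [Pi.mul_apply, Pi.sub_apply] at h4
    rw [intervalIntegral.integral_sub (j1.const_mul 2) j2, intervalIntegral.integral_const_mul]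
      at h4
    have h5 := hQ0 a b h1 h2.le h3
    have hb := hs.mem (right_mem_Icc.2 h2.le)
    have ha := hs.mem (left_mem_Icc.2 h2.le)
    have h6 : 0 ≤ ∫ x, H.Q 0 b x ∂H.vol b := integral_nonneg fun x => hE.Q_nonneg 0 b hb x
    have h7 : ∫ x, H.Q 0 a x ∂H.vol a ≤ ∫ x, 4 * H.N 0 a x ∂H.vol a :=
      integral_mono (A.integrable I ha (A.s0_Q ha 0))
        ((A.integrable I ha (A.s0_N ha 0)).const_mul _) fun x => hE.Q_le 0 a ha x
    rw [integral_const_mul] at h7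
    have h8 := hN a ⟨h1, h2.trans h3⟩
    have h9 : (C' + 4 * K) * E0 * (b - a) ≤ (C' + 4 * K) * E0 * H.T :=
      mul_le_mul_of_nonneg_left (by linarith [hs.1]) (by positivity)
    have h10 : 0 ≤ ∫ s in a..b, ∫ x, H.Q 1 s x ∂H.vol s :=
      intervalIntegral.integral_nonneg h2.le fun s hs' =>
        integral_nonneg fun x => hE.Q_nonneg 1 s (hs.mem hs') x
    simp only [E2]; linarith
  refine ⟨E0 + E1 + E2, by positivity, fun t ht => ?_, fun a b h1 h2 h3 => ?_,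
    fun a b h1 h2 h3 => ?_⟩
  · linarith [hN t ht]
  · linarith [hQ0 a b h1 h2 h3]
  · linarith [hQ1 a b h1 h2 h3]

end D

end Crest.Agent.N207

end
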