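import Crest.Agent.N207.D.Glob
import Crest.Agent.N207.C.Stmt

/-!
# Row 207, block D: `DGlob` and the local Simon estimates `DLoc`
-/

set_option autoImplicit false
set_option linter.dupNamespace false
set_option linter.unusedSectionVars false
open Set MeasureTheory
open scoped ContDiff

noncomputable section

namespace Crest.Agent.N207

namespace D

variable {M : Type*} [TopologicalSpace M] [CompactSpace M] [MeasurableSpace M]
  [OpensMeasurableSpace M] {H : HC M}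

theorem glob_of (A : H.Alg) (I : H.Intg) (hE : H.Evo) (G : H.GBV) : H.DGlob := by
  intro t0 h0
  by_cases hT : t0 < H.T
  swap
  · refine ⟨1, one_pos, fun t ht => absurd (ht.1.trans_lt ht.2) hT, fun h1 hs => ?_⟩
    exact absurd (h1.trans_lt (hs.2.1.trans hs.2.2)) hT
  obtain ⟨E, hEn⟩ := exists_En A I hE G ⟨h0, hT⟩
  have := hEn.nonneg
  refine ⟨2 * E + 1, by linarith, fun t ht => by linarith [hEn.N0 t ht], fun {a b} h1 hs => ?_⟩
  have c1 := A.int_cont I hs (A.sm_Q 1 hs)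
  have c2 := A.int_cont I hs (A.sm_pow 2 (A.sm_Q 0 hs))
  have j1 := (c1.mono (uIcc_of_le hs.2.1.le).le).intervalIntegrable (μ := volume)
  have j2 := (c2.mono (uIcc_of_le hs.2.1.le).le).intervalIntegrable (μ := volume)
  have e : ∫ t in a..b, ∫ x, (H.Q 0 t x ^ 2 + H.Q 1 t x) ∂H.vol t =
      ∫ t in a..b, ((∫ x, H.Q 0 t x ^ 2 ∂H.vol t) + ∫ x, H.Q 1 t x ∂H.vol t) := by
    refine intervalIntegral.integral_congr fun t ht => ?_
    rw [uIcc_of_le hs.2.1.le] at ht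
    have hm := hs.mem ht
    exact integral_add (A.integrable I hm (A.s0_pow 2 (A.s0_Q hm 0)))
      (A.integrable I hm (A.s0_Q hm 1))
  rw [e, intervalIntegral.integral_add j2 j1]
  linarith [hEn.Q0 a b h1 hs.2.1.le hs.2.2, hEn.Q1 a b h1 hs.2.1.le hs.2.2]

theorem int_ind {ψ : M → ℝ} (hψ : Continuous ψ) (μ : Measure M) [IsFiniteMeasure μ] :
    Integrable (indicator {x | ψ x ≠ 0} fun _ => (1 : ℝ)) μ ∧
      ∫ x, indicator {x | ψ x ≠ 0} (fun _ => (1 : ℝ)) x ∂μ = μ.real {x | ψ x ≠ 0} := by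
  have hm : MeasurableSet {x | ψ x ≠ 0} := (isOpen_ne_fun hψ continuous_const).measurableSet
  exact ⟨(integrable_const _).indicator hm, integral_indicator_one hm⟩

/-- the localised differential inequality for a subsolution `F` -/
theorem loc_deriv (A : H.Alg) (I : H.Intg) (hE : H.Evo) {a b r L C K : ℝ} {ψ ψ' F F' G : ℝ → M → ℝ}
    (hs : H.St a b) (hψ : H.Cutf a b r L ψ ψ') (hK : ∀ t ∈ Ioo 0 H.T, ∀ x, |H.R t x| ≤ K)
    (sF : H.Sm a b F) (dF : HasDt a b F F') (sG : H.Sm a b G) (F0 : ∀ t ∈ Icc a b, ∀ x, 0 ≤ F t x)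
    (hF : ∀ t ∈ Icc a b, ∀ x, F' t x - H.lap t (F t) x ≤ -G t x + C * √(H.N 0 t x) * F t x) :
    ∃ φ' : ℝ → ℝ, (∀ t ∈ Icc a b,
      HasDerivWithinAt (fun s => ∫ x, ψ s x * F s x ∂H.vol s) (φ' t) (Icc a b) t) ∧
      ∀ t ∈ Icc a b, φ' t ≤ C ^ 2 * (∫ x, H.N 0 t x ∂H.vol t) +
        (4 * (L / r ^ 2) ^ 2 + K ^ 2) * (L * r ^ 4) -
          ∫ x, ψ t x * (G t x - F t x ^ 2) ∂H.vol t := by
  refine ⟨_, I.int_dt hs (A.sm_mul hψ.sm sF) (hψ.dt.mul dF), fun t ht => ?_⟩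
  have hm := hs.mem ht
  have := I.fin t hm
  have sψ := A.sm_s0 hψ.sm t ht
  have sψ' := A.sm_s0 (A.sm_of_dt hs.2.1 hψ.sm hψ.dt) t ht
  have s1 := A.sm_s0 sF t ht
  have s1' := A.sm_s0 (A.sm_of_dt hs.2.1 sF dF) t ht
  have i1 := A.integrable I hm (A.s0_mul sψ (A.s0_lap hm s1))
  have i2 := A.integrable I hm (A.s0_mul (A.s0_lap hm sψ) s1)
  have i12 : Integrable (fun x => ψ t x * H.lap t (F t) x - H.lap t (ψ t) x * F t x) (H.vol t) :=
    i1.sub i2
  have z : ∫ x, (ψ t x * H.lap t (F t) x - H.lap t (ψ t) x * F t x) ∂H.vol t = 0 := by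
    rw [integral_sub i1 i2, A.ibp2 I hm sψ s1, sub_self]
  obtain ⟨i4, e4⟩ := int_ind (A.s0_cont sψ) (H.vol t)
  have i3 := A.integrable I hm (A.s0_mul sψ (A.s0_sub (A.sm_s0 sG t ht) (A.s0_pow 2 s1)))
  have key := int_comb 1 (C ^ 2) (4 * (L / r ^ 2) ^ 2 + K ^ 2) (-1)
    (A.integrable I hm (A.s0_sub (A.s0_add (A.s0_mul sψ' s1) (A.s0_mul sψ s1'))
      (A.s0_mul (A.s0_R hm) (A.s0_mul sψ s1)))) i12 (A.integrable I hm (A.s0_N hm 0)) i4 i3
    fun x => ?_
  · rw [z, e4] at key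
    have := mul_le_mul_of_nonneg_left (hψ.vol t ht)
      (show 0 ≤ 4 * (L / r ^ 2) ^ 2 + K ^ 2 by positivity)
    linarith
  have n0 := hE.N_nonneg 0 t hm x
  have p0 := hψ.nn t ht x
  have p1 := hψ.le t ht x
  have f0 := F0 t ht x
  have b1 := hψ.bt t ht x
  have b2 := hψ.bl t ht x
  by_cases hx : ψ t x = 0
  · rw [hx, Real.sqrt_zero, mul_zero, abs_nonpos_iff] at b1 b2
    have : indicator {x | ψ t x ≠ 0} (fun _ => (1 : ℝ)) x = 0 := by simp [hx]
    rw [this, hx, b1, b2]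
    have : 0 ≤ C ^ 2 * H.N 0 t x := by positivity
    linarith
  have e1 : indicator {x | ψ t x ≠ 0} (fun _ => (1 : ℝ)) x = 1 := by simp [hx]
  rw [e1]
  set Λ := L / r ^ 2
  have h1 := mul_le_mul_of_nonneg_left (hF t ht x) p0
  have h2 := mul_le_mul_of_nonneg_left
    (young_sqrt (C := C) (f := F t x) n0 (show (0 : ℝ) < 1 / 4 by norm_num)) p0
  have h3 : ψ t x * (C ^ 2 / (4 * (1 / 4)) * H.N 0 t x) ≤ C ^ 2 * H.N 0 t x := by
    have : C ^ 2 / (4 * (1 / 4)) = C ^ 2 := by norm_num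
    rw [this]
    exact mul_le_of_le_one_left (by positivity) p1
  have h4 := young_sqrt (C := F t x) (f := 2 * Λ) p0 one_pos
  have h5 : (ψ' t x + H.lap t (ψ t) x) * F t x ≤ F t x * √(ψ t x) * (2 * Λ) := by
    have : ψ' t x + H.lap t (ψ t) x ≤ √(ψ t x) * (2 * Λ) := by
      linarith [(abs_le.1 b1).2, (abs_le.1 b2).2]
    nlinarith
  have h6 := abs_le.1 (hK t hm x)
  have h7 : -(H.R t x * (ψ t x * F t x)) ≤ ψ t x * F t x ^ 2 / 4 + K ^ 2 := by
    have k1 : -(H.R t x * (ψ t x * F t x)) ≤ K * (ψ t x * F t x) := by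
      nlinarith [mul_nonneg p0 f0, h6.1]
    have k2 : K * F t x ≤ F t x ^ 2 / 4 + K ^ 2 := by nlinarith [sq_nonneg (F t x / 2 - K)]
    have k3 := mul_le_mul_of_nonneg_left k2 p0
    have k4 : ψ t x * K ^ 2 ≤ K ^ 2 := mul_le_of_le_one_left (sq_nonneg K) p1
    nlinarith
  have h8 : 0 ≤ ψ t x * F t x ^ 2 := by positivity
  nlinarith

/-- Riccati comparison: `J' ≤ B - ∫ ψ f²` forgets the initial value -/
theorem riccati {J J' W : ℝ → ℝ} {a b B V : ℝ} (hab : a < b) (hB : 0 ≤ B)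
    (hd : ∀ t ∈ Icc a b, HasDerivWithinAt J (J' t) (Icc a b) t)
    (h : ∀ t ∈ Icc a b, J' t ≤ B - W t)
    (hW : ∀ t ∈ Icc a b, ∀ τ : ℝ, 2 * τ * J t - τ ^ 2 * W t ≤ V) :
    J b ≤ V / (b - a) + B * (b - a) := by
  have h1 : AntitoneOn (fun t => (t - a) ^ 2 * J t - (V + B * (b - a) ^ 2) * (t - a))
      (Icc a b) := by
    refine anti_of_deriv (φ' := fun t => 2 * (t - a) * J t + (t - a) ^ 2 * J' t -
      (V + B * (b - a) ^ 2)) (fun t ht => ?_) fun t ht => ?_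
    · have d1 : HasDerivAt (fun t : ℝ => (t - a) ^ 2) (2 * (t - a)) t := by
        have := ((hasDerivAt_id t).sub_const a).pow 2
        refine HasDerivAt.congr_deriv (f := fun t : ℝ => (t - a) ^ 2) this ?_
        simp
      have d2 : HasDerivAt (fun t : ℝ => (V + B * (b - a) ^ 2) * (t - a))
          (V + B * (b - a) ^ 2) t := by
        have := ((hasDerivAt_id t).sub_const a).const_mul (V + B * (b - a) ^ 2)
        rw [mul_one] at this
        exact this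
      exact (d1.hasDerivWithinAt.mul (hd t ht)).sub d2.hasDerivWithinAt
    · have ht' := Ioo_subset_Icc_self ht
      have k1 := mul_le_mul_of_nonneg_left (h t ht') (sq_nonneg (t - a))
      have k2 := hW t ht' (t - a)
      have k3 : (t - a) ^ 2 ≤ (b - a) ^ 2 :=
        pow_le_pow_left₀ (by linarith [ht.1]) (by linarith [ht.2]) 2
      nlinarith [mul_le_mul_of_nonneg_left k3 hB]
  have h2 := h1 (left_mem_Icc.2 hab.le) (right_mem_Icc.2 hab.le) hab.le
  simp only [sub_self, mul_zero, ne_eq, OfNat.ofNat_ne_zero, not_false_eq_true, zero_pow,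
    zero_mul] at h2
  have hp : 0 < b - a := sub_pos.2 hab
  have e : V / (b - a) + B * (b - a) = (V + B * (b - a) ^ 2) * (b - a) / (b - a) ^ 2 := by
    field_simp
  rw [e, le_div_iff₀ (by positivity)]
  linarith

theorem loc_of (A : H.Alg) (I : H.Intg) (hE : H.Evo) (hG : H.DGlob) : H.DLoc := by
  intro t0 h0 L hL
  obtain ⟨E, hE0, hN, -⟩ := hG t0 h0
  obtain ⟨K, hK0, hK⟩ := exists_K hE
  obtain ⟨C1, -, h1⟩ := dt_fq A hE
  obtain ⟨C2, -, h2⟩ := dt_Q0 hE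
  have hc : ∀ t ∈ Ioo 0 H.T, ∀ x, 1 ≤ H.R t x + (K + 1) := fun t ht x => by
    linarith [(abs_le.1 (hK t ht x)).1]
  set B := (C1 ^ 2 + C2 ^ 2) * E + (4 * L ^ 3 + K ^ 2 * L)
  have hL0 : 0 < L := by linarith
  have hB : 0 ≤ B := by positivity
  set c := 2 * K + 1
  have hc1 : 1 ≤ c := by simp only [c]; linarith
  set D1 := L ^ 2 + B
  have hD1 : 0 < D1 := by positivity
  refine ⟨c * D1 + 2 * c ^ 2 * (D1 + B) + B, by positivity,
    fun {a b r ψ ψ'} ha hs hr hr1 hψ => ?_⟩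
  have sf := sm_fq A hs hc
  obtain ⟨f', -, df⟩ := A.sm_dt hs.2.1 sf
  obtain ⟨Q', -, dQ⟩ := A.sm_dt hs.2.1 (A.sm_Q 0 hs)
  have f0 : ∀ t ∈ Icc a b, ∀ x, 0 ≤ fq H (K + 1) t x := fun t ht x =>
    fq_nonneg hE (hs.mem ht) (hc t (hs.mem ht) x)
  obtain ⟨J', dJ, hJ⟩ := loc_deriv A I hE (C := C1) hs hψ hK sf df
    (A.sm_cmul 2 (A.sm_pow 2 sf)) f0 fun t ht x => by linarith [h1 hc hs df t ht x]
  obtain ⟨Y', dY, hY⟩ := loc_deriv A I hE (C := C2) hs hψ hK (A.sm_Q 0 hs) dQ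
    (A.sm_cmul 2 (A.sm_Q 1 hs)) (fun t ht x => hE.Q_nonneg 0 t (hs.mem ht) x)
    fun t ht x => by linarith [(abs_le.1 (h2 hs dQ t ht x)).2]
  have hV : (4 * (L / r ^ 2) ^ 2 + K ^ 2) * (L * r ^ 4) ≤ 4 * L ^ 3 + K ^ 2 * L := by
    have e : (4 * (L / r ^ 2) ^ 2 + K ^ 2) * (L * r ^ 4) = 4 * L ^ 3 + K ^ 2 * L * r ^ 4 := by
      field_simp
    have : K ^ 2 * L * r ^ 4 ≤ K ^ 2 * L :=
      mul_le_of_le_one_right (by positivity) (pow_le_one₀ hr.le hr1)
    linarith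
  have hNt : ∀ t ∈ Icc a b, ∀ C : ℝ, C ^ 2 * ∫ x, H.N 0 t x ∂H.vol t ≤ C ^ 2 * E := fun t ht C =>
    mul_le_mul_of_nonneg_left (hN t ⟨ha.trans ht.1, ht.2.trans_lt hs.2.2⟩) (sq_nonneg C)
  set W : ℝ → ℝ := fun t => ∫ x, ψ t x * fq H (K + 1) t x ^ 2 ∂H.vol t with hW
  have hJ' : ∀ t ∈ Icc a b, J' t ≤ B - W t := fun t ht => by
    have k1 := hJ t ht
    have e : ∫ x, ψ t x * (2 * fq H (K + 1) t x ^ 2 - fq H (K + 1) t x ^ 2) ∂H.vol t = W t := by
      simp only [hW]; congr 1; funext x; ring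
    have k2 : 0 ≤ C2 ^ 2 * E := by positivity
    rw [e] at k1
    simp only [B]; linarith [hNt t ht C1]
  have hY' : ∀ t ∈ Icc a b, Y' t ≤
      B - ∫ x, ψ t x * (2 * H.Q 1 t x - H.Q 0 t x ^ 2) ∂H.vol t := fun t ht => by
    have k2 : 0 ≤ C1 ^ 2 * E := by positivity
    simp only [B]; linarith [hY t ht, hNt t ht C2]
  have hrL : 0 < r ^ 2 / L := by positivity
  -- the pointwise bound
  have hJb : ∀ t, a + r ^ 2 / L ≤ t → t ≤ b →
      ∫ x, ψ t x * fq H (K + 1) t x ∂H.vol t ≤ D1 * r ^ 2 := by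
    intro t k1 k2
    have sub : Icc (t - r ^ 2 / L) t ⊆ Icc a b := Icc_subset_Icc (by linarith) k2
    have := riccati (V := L * r ^ 4) (W := W) (show t - r ^ 2 / L < t by linarith) hB
      (fun s hs' => (dJ s (sub hs')).mono sub) (fun s hs' => hJ' s (sub hs')) fun s hs' τ => by
        have ht := sub hs'
        have hm := hs.mem ht
        have := I.fin s hm
        have sψ := A.sm_s0 hψ.sm s ht
        have s1 := A.sm_s0 sf s ht
        obtain ⟨i4, e4⟩ := int_ind (A.s0_cont sψ) (H.vol s)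
        have i1 := A.integrable I hm (A.s0_mul sψ s1)
        have i2 := A.integrable I hm (A.s0_mul sψ (A.s0_pow 2 s1))
        have key := int_comb (-(2 * τ)) (τ ^ 2) 1 0 (integrable_zero _ _ _) i1 i2 i4 i4
          fun x => by
            have p0 := hψ.nn s ht x
            have p1 : ψ s x ≤ indicator {x | ψ s x ≠ 0} (fun _ => (1 : ℝ)) x := by
              by_cases hx : ψ s x = 0
              · simp [hx]
              · simpa [hx] using hψ.le s ht x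
            have := mul_nonneg p0 (sq_nonneg (1 - τ * fq H (K + 1) s x))
            simp only [Pi.zero_apply]
            nlinarith
        rw [e4] at key
        simp only [Pi.zero_apply, integral_zero] at key
        linarith [hψ.vol s ht]
    have e1 : t - (t - r ^ 2 / L) = r ^ 2 / L := by ring
    rw [e1] at this
    have e2 : L * r ^ 4 / (r ^ 2 / L) = L ^ 2 * r ^ 2 := by field_simp
    have e3 : B * (r ^ 2 / L) ≤ B * r ^ 2 :=
      mul_le_mul_of_nonneg_left (div_le_self (by positivity) hL) hB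
    rw [e2] at this
    simp only [D1]; linarith
  have hQf : ∀ t ∈ Icc a b, ∀ x, H.Q 0 t x ≤ c * fq H (K + 1) t x := fun t ht x => by
    have h5 := f0 t ht x
    rw [Q_eq_fq (hc t (hs.mem ht) x)]
    simp only [c]; nlinarith [(abs_le.1 (hK t (hs.mem ht) x)).2]
  have hYb : ∀ t, a + r ^ 2 / L ≤ t → t ≤ b →
      ∫ x, ψ t x * H.Q 0 t x ∂H.vol t ≤ c * D1 * r ^ 2 := by
    intro t k1 k2
    have ht : t ∈ Icc a b := ⟨by linarith, k2⟩
    have hm := hs.mem ht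
    have sψ := A.sm_s0 hψ.sm t ht
    have k3 : ∫ x, ψ t x * H.Q 0 t x ∂H.vol t ≤
        ∫ x, c * (ψ t x * fq H (K + 1) t x) ∂H.vol t :=
      integral_mono (A.integrable I hm (A.s0_mul sψ (A.s0_Q hm 0)))
        ((A.integrable I hm (A.s0_mul sψ (A.sm_s0 sf t ht))).const_mul _) fun x => by
          have := mul_le_mul_of_nonneg_left (hQf t ht x) (hψ.nn t ht x)
          show ψ t x * H.Q 0 t x ≤ c * (ψ t x * fq H (K + 1) t x)
          linarith
    rw [integral_const_mul] at k3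
    have := mul_le_mul_of_nonneg_left (hJb t k1 k2) (show 0 ≤ c by linarith)
    linarith
  intro s t k1 k2 k3
  have r2 : 0 < r ^ 2 := by positivity
  have x1 : 0 ≤ 2 * c ^ 2 * (D1 + B) + B := by positivity
  refine ⟨(hYb t (k1.trans k2) k3).trans (by nlinarith), ?_⟩
  have sub : Icc s t ⊆ Icc a b := Icc_subset_Icc (by linarith) k3
  have usub : uIcc s t ⊆ Icc a b := (uIcc_of_le k2).le.trans sub
  have cW := A.int_cont I hs (A.sm_mul hψ.sm (A.sm_pow 2 sf))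
  have cZ := A.int_cont I hs (A.sm_mul hψ.sm
    (A.sm_sub (A.sm_cmul 2 (A.sm_Q 1 hs)) (A.sm_pow 2 (A.sm_Q 0 hs))))
  have cS := A.int_cont I hs (A.sm_mul hψ.sm
    (A.sm_add (A.sm_pow 2 (A.sm_Q 0 hs)) (A.sm_Q 1 hs)))
  have g1 := int_le_of_deriv (c := B) k2 (fun σ hσ => (dJ σ (sub hσ)).mono sub) (cW.mono sub)
    fun σ hσ => hJ' σ (sub (Ioo_subset_Icc_self hσ))
  have g2 := int_le_of_deriv (c := B) k2 (fun σ hσ => (dY σ (sub hσ)).mono sub) (cZ.mono sub)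
    fun σ hσ => hY' σ (sub (Ioo_subset_Icc_self hσ))
  have ht : t ∈ Icc a b := sub (right_mem_Icc.2 k2)
  have n1 : 0 ≤ ∫ x, ψ t x * fq H (K + 1) t x ∂H.vol t :=
    integral_nonneg fun x => mul_nonneg (hψ.nn t ht x) (f0 t ht x)
  have n2 : 0 ≤ ∫ x, ψ t x * H.Q 0 t x ∂H.vol t :=
    integral_nonneg fun x => mul_nonneg (hψ.nn t ht x) (hE.Q_nonneg 0 t (hs.mem ht) x)
  have j1 := (cW.mono usub).intervalIntegrable (μ := volume)
  have j2 := (cZ.mono usub).intervalIntegrable (μ := volume)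
  have g3 : ∫ σ in s..t, ∫ x, ψ σ x * (H.Q 0 σ x ^ 2 + H.Q 1 σ x) ∂H.vol σ ≤
      ∫ σ in s..t, (2 * c ^ 2 * (∫ x, ψ σ x * fq H (K + 1) σ x ^ 2 ∂H.vol σ) +
        1 * ∫ x, ψ σ x * (2 * H.Q 1 σ x - H.Q 0 σ x ^ 2) ∂H.vol σ) := by
    refine intervalIntegral.integral_mono_on k2 ((cS.mono usub).intervalIntegrable)
      ((j1.const_mul _).add (j2.const_mul _)) fun σ hσ => ?_
    have hσ' := sub hσ
    have hm := hs.mem hσ'
    have sψ := A.sm_s0 hψ.sm σ hσ'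
    have i1 := A.integrable I hm (A.s0_mul sψ (A.s0_pow 2 (A.sm_s0 sf σ hσ')))
    have i2 := A.integrable I hm (A.s0_mul sψ
      (A.s0_sub (A.s0_cmul 2 (A.s0_Q hm 1)) (A.s0_pow 2 (A.s0_Q hm 0))))
    have key := int_comb (2 * c ^ 2) 1 0 0 (A.integrable I hm (A.s0_mul sψ
      (A.s0_add (A.s0_pow 2 (A.s0_Q hm 0)) (A.s0_Q hm 1)))) i1 i2 i1 i1 fun x => by
        have q0 := hE.Q_nonneg 0 σ hm x
        have q1 := hE.Q_nonneg 1 σ hm x
        have p0 := hψ.nn σ hσ' x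
        have q2 : H.Q 0 σ x ^ 2 ≤ c ^ 2 * fq H (K + 1) σ x ^ 2 := by
          rw [← mul_pow]; exact pow_le_pow_left₀ q0 (hQf σ hσ' x) 2
        nlinarith [mul_le_mul_of_nonneg_left q2 p0, mul_nonneg p0 q1]
    linarith
  rw [intervalIntegral.integral_add (j1.const_mul _) (j2.const_mul _),
    intervalIntegral.integral_const_mul, intervalIntegral.integral_const_mul] at g3
  have g4 := hJb s k1 (k2.trans k3)
  have g5 := hYb s k1 (k2.trans k3)
  have ts : 0 ≤ t - s := sub_nonneg.2 k2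
  have g6 : ∫ σ in s..t, ∫ x, ψ σ x * fq H (K + 1) σ x ^ 2 ∂H.vol σ ≤
      (D1 + B) * (t - s + r ^ 2) := by nlinarith [mul_nonneg hD1.le ts, mul_nonneg hB r2.le]
  have g7 := mul_le_mul_of_nonneg_left g6 (show 0 ≤ 2 * c ^ 2 by positivity)
  have g8 : 0 ≤ c * D1 * (t - s) := by positivity
  have g9 : 0 ≤ B * r ^ 2 := by positivity
  nlinarith

end D

namespace HC

variable {M : Type*} [TopologicalSpace M] [CompactSpace M] [MeasurableSpace M]
  [OpensMeasurableSpace M] {H : HC M}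

theorem dGlob (h : H.Ok) : H.DGlob := D.glob_of h.alg h.int h.evo h.gbv

theorem dLoc (h : H.Ok) : H.DLoc := D.loc_of h.alg h.int h.evo (dGlob h)

end HC

end Crest.Agent.N207

end
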