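import Crest.Agent.N207.D.CutH

/-!
# Row 207, block E1: persistence of small energy on a parabolic window
-/

set_option autoImplicit false
set_option linter.dupNamespace false
set_option linter.unusedSectionVars false
open Set MeasureTheory
open scoped ContDiff

noncomputable section

namespace Crest.Agent.N207

namespace D

variable {M : Type*} [TopologicalSpace M] [CompactSpace M] [MeasurableSpace M]
  [OpensMeasurableSpace M] {H : HC M}

theorem meas_B (Di : H.Dist) {t : ℝ} (ht : t ∈ Ioo 0 H.T) (x : M) (r : ℝ) :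
    MeasurableSet (H.B t x r) := (isOpen_lt (Di.cont t ht x) continuous_const).measurableSet

/-- a weight that is one on `S` dominates the integral over `S` -/
theorem set_le_wt {μ : Measure M} {S : Set M} (hS : MeasurableSet S) {ψ f : M → ℝ}
    (i1 : Integrable f μ) (i2 : Integrable (fun x => ψ x * f x) μ) (f0 : ∀ x, 0 ≤ f x)
    (p0 : ∀ x, 0 ≤ ψ x) (h : ∀ x ∈ S, 1 ≤ ψ x) : ∫ x in S, f x ∂μ ≤ ∫ x, ψ x * f x ∂μ := by
  rw [← integral_indicator hS]
  refine integral_mono (i1.indicator hS) i2 fun x => ?_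
  by_cases hx : x ∈ S
  · rw [indicator_of_mem hx]; exact le_mul_of_one_le_left (f0 x) (h x hx)
  · rw [indicator_of_notMem hx]; exact mul_nonneg (p0 x) (f0 x)

/-- a weight `≤ 1` supported in `S` is dominated by the integral over `S` -/
theorem wt_le_set {μ : Measure M} {S : Set M} (hS : MeasurableSet S) {ψ f : M → ℝ}
    (i1 : Integrable f μ) (i2 : Integrable (fun x => ψ x * f x) μ) (f0 : ∀ x, 0 ≤ f x)
    (p1 : ∀ x, ψ x ≤ 1) (h : ∀ x, ψ x ≠ 0 → x ∈ S) : ∫ x, ψ x * f x ∂μ ≤ ∫ x in S, f x ∂μ := by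
  rw [← integral_indicator hS]
  refine integral_mono i2 (i1.indicator hS) fun x => ?_
  by_cases hx : x ∈ S
  · rw [indicator_of_mem hx]; exact mul_le_of_le_one_left (f0 x) (p1 x)
  · rw [indicator_of_notMem hx]
    have : ψ x = 0 := by by_contra h'; exact hx (h x h')
    simp [this]

/-- weighted energy against the Gauss-Bonnet integrand -/
theorem wt_N_le (A : H.Alg) (I : H.Intg) {t : ℝ} (ht : t ∈ Ioo 0 H.T) {ψ : M → ℝ} (sψ : H.S0 ψ)
    (p0 : ∀ x, 0 ≤ ψ x) : ∫ x, ψ x * H.N 0 t x ∂H.vol t ≤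
      ∫ x, ψ x * H.Pf t x ∂H.vol t + 4 * ∫ x, ψ x * H.Q 0 t x ∂H.vol t := by
  obtain ⟨a, b, hs, hm⟩ := HC.exists_st ht
  have i1 := A.integrable I ht (A.s0_mul sψ (A.sm_s0 (A.sm_Pf hs) t hm))
  have i2 := A.integrable I ht (A.s0_mul sψ (A.s0_Q ht 0))
  have := int_comb 1 4 0 0 (A.integrable I ht (A.s0_mul sψ (A.s0_N ht 0))) i1 i2 i1 i1 fun x => by
    have := mul_le_mul_of_nonneg_left (N_le_Pf (H := H) t x) (p0 x)
    linarith
  linarith

theorem wt_Pf_le (A : H.Alg) (I : H.Intg) (hE : H.Evo) {t : ℝ} (ht : t ∈ Ioo 0 H.T) {ψ : M → ℝ}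
    (sψ : H.S0 ψ) (p0 : ∀ x, 0 ≤ ψ x) :
    ∫ x, ψ x * H.Pf t x ∂H.vol t ≤ ∫ x, ψ x * H.N 0 t x ∂H.vol t := by
  obtain ⟨a, b, hs, hm⟩ := HC.exists_st ht
  exact integral_mono (A.integrable I ht (A.s0_mul sψ (A.sm_s0 (A.sm_Pf hs) t hm)))
    (A.integrable I ht (A.s0_mul sψ (A.s0_N ht 0))) fun x =>
      mul_le_mul_of_nonneg_left (Pf_le hE ht x) (p0 x)

theorem pers_of (h : H.Ok) (vu : H.VolUp) (dl : H.DistLo) (du : H.DistUp) (d : H.DOut) :
    H.EPers := by
  intro t0 h0 ε hε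
  have A := h.alg
  have I := h.int
  obtain ⟨E, hE0, hN, hQ⟩ := d.glob (t0 / 2) (by linarith)
  obtain ⟨A0, hA0, hA⟩ := du (t0 / 2) (by linarith)
  obtain ⟨Cd, hCd, hd⟩ := dl
  obtain ⟨Cu, hCu, hu⟩ := A.exists_lipheat h.evo h.solv h.dist
  obtain ⟨Cv, hCv, hv⟩ := vu (t0 / 2) (by linarith)
  obtain ⟨K, hK, hcut⟩ := cutf_ps A I
  obtain ⟨Cf, hCf, hfl⟩ := flux_le A I h.evo d.flux
  have hK0 : 0 < K := by linarith
  set γ := min (min 1 (1 / (32 * A0 * (Cd + Cu + 1))))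
    (ε / (2 * (Cf * E * (8 * A0 * K * (2 * Cu + 1))))) with hγ
  have γ0 : 0 < γ := by positivity
  have γ1 : γ ≤ 1 := (min_le_left _ _).trans (min_le_left _ _)
  have γ2 : γ * (32 * A0 * (Cd + Cu + 1)) ≤ 1 :=
    (le_div_iff₀ (by positivity)).1 ((min_le_left _ _).trans (min_le_right _ _))
  have γ3 : γ * (2 * (Cf * E * (8 * A0 * K * (2 * Cu + 1)))) ≤ ε :=
    (le_div_iff₀ (by positivity)).1 (min_le_right _ _)
  clear_value γ
  set L := K * (16 * A0 * Cu / γ + 64 * A0 ^ 2) + Cv + 2 / γ ^ 2 + 1 with hL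
  have x1 : 0 ≤ K * (16 * A0 * Cu / γ + 64 * A0 ^ 2) := by positivity
  have x2 : 0 < 2 / γ ^ 2 := by positivity
  have L1 : 1 ≤ L := by linarith
  obtain ⟨CL, hCL, hloc⟩ := d.loc (t0 / 2) (by linarith) L L1
  refine ⟨γ ^ 2, 1 / (32 * A0), min 1 (min (t0 / 4) (ε / (8 * CL))), by positivity, by positivity,
    by positivity, fun t ht x r hr hr0 hen s hs hst => ?_⟩
  have r1 : r ≤ 1 := hr0.trans (min_le_left _ _)
  have r2 : r ≤ t0 / 4 := hr0.trans ((min_le_right _ _).trans (min_le_left _ _))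
  have r3 : r * (8 * CL) ≤ ε :=
    (le_div_iff₀ (by positivity)).1 (hr0.trans ((min_le_right _ _).trans (min_le_right _ _)))
  have rr : r ^ 2 ≤ r := by nlinarith
  set θ := γ * r with hθ
  have θ0 : 0 < θ := by positivity
  have eθ : γ ^ 2 * r ^ 2 = θ ^ 2 := by rw [hθ]; ring
  rw [eθ] at hst
  have θ1 : θ ^ 2 ≤ t0 / 4 := by
    have : γ ^ 2 * r ^ 2 ≤ r ^ 2 := mul_le_of_le_one_left (sq_nonneg r) (pow_le_one₀ γ0.le γ1)
    linarith
  have θ2 : 0 < θ ^ 2 := by positivity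
  have hst' := abs_le.1 hst
  set a := t - 2 * θ ^ 2 with ha
  set a' := t - 3 / 2 * θ ^ 2 with ha'
  set b := max s t with hb
  have a0 : t0 / 2 ≤ a := by linarith [ht.1]
  have bT : b < H.T := max_lt hs.2 ht.2
  have tb : t ≤ b := le_max_right _ _
  have sb : s ≤ b := le_max_left _ _
  have b1 : b ≤ t + θ ^ 2 := max_le (by linarith [hst'.2]) (by linarith)
  have st : H.St a b := ⟨by linarith, by linarith, bT⟩
  have st' : H.St a' b := ⟨by linarith, by linarith, bT⟩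
  have sub : Icc a' b ⊆ Icc a b := Icc_subset_Icc (by linarith) le_rfl
  set ρ := r / (8 * A0) with hρ
  have ρ0 : 0 < ρ := by positivity
  have eρ : A0 * ρ = r / 8 := by rw [hρ]; field_simp
  obtain ⟨u, uh, ug, ul, -, ud, -⟩ := hu st x (ρ / 4) (by positivity)
  have sq1 : ∀ σ ∈ Icc a' b, θ / 2 ≤ √(σ - a) := fun σ hσ =>
    Real.le_sqrt_of_sq_le (by nlinarith [hσ.1])
  have sq2 : ∀ σ ∈ Icc a' b, √(σ - a) ≤ 2 * θ := fun σ hσ =>
    Real.sqrt_le_iff.2 ⟨by positivity, by nlinarith [hσ.2]⟩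
  have ul' : ∀ σ ∈ Icc a' b, ∀ y, |H.lap σ (u σ) y| ≤ 2 * Cu / θ := fun σ hσ y => by
    refine (ul σ ⟨by linarith [hσ.1], hσ.2⟩ y).trans ?_
    rw [div_le_div_iff₀ (lt_of_lt_of_le (by positivity) (sq1 σ hσ)) θ0]
    nlinarith [sq1 σ hσ]
  have kγ : A0 * ((Cd + Cu + 1) * θ) ≤ r / 32 := by
    have := mul_le_mul_of_nonneg_right γ2 hr.le
    rw [hθ]; linarith
  have z1 : 0 ≤ A0 * (Cd * θ) := by positivity
  have z2 : 0 ≤ A0 * (Cu * θ) := by positivity
  have z3 : 0 ≤ A0 * θ := by positivity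
  have supp : ∀ σ ∈ Icc a' b, ∀ y, u σ y < 2 * ρ → y ∈ H.B σ x r := fun σ hσ y hy => by
    have k1 := (abs_le.1 (ud σ (sub hσ) y)).1
    have k2 := hA a σ a0 (sub hσ).1 (hσ.2.trans_lt bT) x y
    have k3 := mul_le_mul_of_nonneg_left (sq2 σ hσ) hCu.le
    have k4 : H.d a x y + √(σ - a) ≤ 2 * ρ + ρ / 4 + Cu * (2 * θ) + 2 * θ := by
      linarith [sq2 σ hσ]
    have k5 := mul_le_mul_of_nonneg_left k4 hA0.le
    show H.d σ x y < r
    nlinarith
  have hsm : s ∈ Icc a' b := ⟨by linarith [hst'.1], sb⟩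
  have htm : t ∈ Icc a' b := ⟨by linarith, tb⟩
  obtain ⟨cf, cb⟩ := hcut (r := r) (L := L) (Λ := 2 * Cu / θ) st' ρ0 (by positivity)
    (A.heat_mono uh (by linarith) le_rfl).1 (A.heat_mono uh (by linarith) le_rfl).2
    (fun σ hσ => ug σ (sub hσ)) ul' ul'
    (by
      have e : K * (2 * Cu / θ / ρ + 1 / ρ ^ 2) =
          K * (16 * A0 * Cu / γ + 64 * A0 ^ 2) / r ^ 2 := by
        rw [hθ, hρ]; field_simp; ring
      rw [e]
      exact div_le_div_of_nonneg_right (by linarith) (by positivity))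
    (fun σ hσ => by
      have hm := st'.mem hσ
      have := I.fin σ hm
      refine (measureReal_mono (fun y hy => supp σ hσ y hy) (measure_ne_top _ _)).trans ?_
      refine (hv σ ⟨a0.trans (sub hσ).1, hm.2⟩ x r hr).trans ?_
      exact mul_le_mul_of_nonneg_right (by linarith) (by positivity))
  have a1 : t0 / 2 ≤ a' := by linarith
  have kK : K / ρ ^ 2 ≤ (K / ρ) ^ 2 := by
    have k : K ≤ K ^ 2 := by rw [sq]; exact le_mul_of_one_le_left hK0.le hK
    rw [div_pow K ρ]; exact div_le_div_of_nonneg_right k (sq_nonneg ρ)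
  have fl := hfl (E := E) (Λ := K * (2 * Cu / θ) / ρ) (Γ := K / ρ) st' cf.sm cf.dt θ0
    (by positivity) (by positivity) (fun σ hσ y => (cb σ hσ y).1)
    (fun σ hσ y => (cb σ hσ y).2.trans kK)
    (fun σ hσ => hN σ ⟨a1.trans hσ.1, hσ.2.trans_lt bT⟩) (hQ a1 st') t htm s hsm hst
  have e2 : Cf * E * (K * (2 * Cu / θ) / ρ * θ ^ 2 + K / ρ * θ) =
      γ * (Cf * E * (8 * A0 * K * (2 * Cu + 1))) := by
    rw [hθ, hρ]; field_simp
  rw [e2] at fl
  have hq := (hloc a1 st' hr r1 cf s s (by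
    have : r ^ 2 / L ≤ θ ^ 2 / 2 := by
      rw [div_le_iff₀ (by linarith), ← eθ]
      have k1 : 2 / γ ^ 2 ≤ L := by linarith
      have k2 := (div_le_iff₀ (by positivity : 0 < γ ^ 2)).1 k1
      nlinarith [sq_nonneg r]
    linarith [hst'.1]) le_rfl sb).1
  have tm := st'.mem htm
  have sψ := fun σ hσ => A.sm_s0 cf.sm σ hσ
  have g1 : H.en s x (1 / (32 * A0) * r) ≤ ∫ y, ps ρ (u s y) * H.N 0 s y ∂H.vol s :=
    set_le_wt (meas_B h.dist hs x _) (A.integrable I hs (A.s0_N hs 0))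
      (A.integrable I hs (A.s0_mul (sψ s hsm) (A.s0_N hs 0))) (h.evo.N_nonneg 0 s hs)
      (fun y => ps_nonneg _ _) fun y hy => by
        refine (ps_one ρ0 ?_).ge
        have k0 : H.d s x y < 1 / (32 * A0) * r := hy
        have k1 := (abs_le.1 (ud s (sub hsm) y)).2
        have k2 := hd a s (by linarith) (sub hsm).1 hs.2 x y
        have k3 := mul_le_mul_of_nonneg_left (sq2 s hsm) hCu.le
        have k4 := mul_le_mul_of_nonneg_left (sq2 s hsm) hCd.le
        have e3 : 1 / (32 * A0) * r = ρ / 4 := by rw [hρ]; field_simp; ring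
        have k5 : (Cd + Cu + 1) * θ ≤ ρ / 4 := by
          refine le_of_mul_le_mul_left ?_ hA0
          linarith
        linarith
  have g2 := wt_N_le A I hs (sψ s hsm) fun y => ps_nonneg _ _
  have g3 := wt_Pf_le A I h.evo tm (sψ t htm) fun y => ps_nonneg _ _
  have g4 : ∫ y, ps ρ (u t y) * H.N 0 t y ∂H.vol t ≤ H.en t x r :=
    wt_le_set (meas_B h.dist tm x _) (A.integrable I tm (A.s0_N tm 0))
      (A.integrable I tm (A.s0_mul (sψ t htm) (A.s0_N tm 0))) (h.evo.N_nonneg 0 t tm)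
      (fun y => ps_le_one _ _) fun y hy => supp t htm y (by
        by_contra k
        exact hy (ps_zero ρ0 (not_lt.1 k)))
  have g5 := (abs_le.1 fl).2
  have g6 : CL * r ^ 2 ≤ CL * r := mul_le_mul_of_nonneg_left rr hCL.le
  linarith

end D

namespace HC

variable {M : Type*} [TopologicalSpace M] [CompactSpace M] [MeasurableSpace M]
  [OpensMeasurableSpace M] {H : HC M}

theorem ePers (h : H.Ok) (c : H.COut) : H.EPers := D.pers_of h c.up c.dlo c.dup (dOut h)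

end HC

end Crest.Agent.N207

end
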