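import Crest.Agent.N207.C.Cutf

/-!
# Row 207, block D: `∫_{B(x,r)} |Ric|² ≤ C r²`
-/

set_option autoImplicit false
set_option linter.dupNamespace false
set_option linter.unusedSectionVars false
open Set MeasureTheory
open scoped ContDiff

noncomputable section

namespace Crest.Agent.N207

namespace HC

variable {M : Type*} [TopologicalSpace M] [CompactSpace M] [MeasurableSpace M]
  [OpensMeasurableSpace M] {H : HC M}

/-- the local `L²` bound of the Ricci curvature, at all scales -/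
theorem qLoc (h : H.Ok) (c : H.COut) (d : H.DOut) {t0 : ℝ} (h0 : 0 < t0) :
    ∃ C, 0 < C ∧ ∀ t ∈ Ico t0 H.T, ∀ x, ∀ r > 0,
      ∫ y in H.B t x r, H.Q 0 t y ∂H.vol t ≤ C * r ^ 2 := by
  obtain ⟨θ, lam, L, r0, hθ, hl, hL, hLθ, hr0, hr1, ht0, hc⟩ := exists_cutf h c.dup c.up h0
  obtain ⟨C, hC, hloc⟩ := d.loc (t0 / 2) (by linarith) L hL
  obtain ⟨E, hE, hN, -⟩ := d.glob t0 h0
  refine ⟨C / lam ^ 2 + 4 * E / (lam * r0) ^ 2, by positivity, fun t ht x r hr => ?_⟩
  have tm : t ∈ Ioo 0 H.T := ⟨h0.trans_le ht.1, ht.2⟩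
  have x1 : 0 ≤ C / lam ^ 2 * r ^ 2 := by positivity
  have x2 : 0 ≤ 4 * E / (lam * r0) ^ 2 * r ^ 2 := by positivity
  have iQ := h.alg.integrable h.int tm (h.alg.s0_Q tm 0)
  rw [add_mul]
  by_cases k : r / lam ≤ r0
  · have p : 0 < r / lam := by positivity
    have p2 : 0 < θ * (r / lam) ^ 2 := by positivity
    obtain ⟨ψ, ψ', st, cf, h1, -⟩ := hc t ht x (r / lam) p k t le_rfl (by linarith) ht.2
    have p3 : 3 * θ * (r / lam) ^ 2 ≤ t0 / 2 := le_trans (by gcongr) ht0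
    have p4 : (r / lam) ^ 2 / L ≤ θ * (r / lam) ^ 2 := by
      rw [div_eq_mul_one_div _ L, mul_comm]; gcongr
    have hm : t ∈ Icc (t - 2 * θ * (r / lam) ^ 2) t := ⟨by linarith, le_rfl⟩
    have q := (hloc (by linarith [ht.1]) st p (k.trans hr1) cf t t (by linarith) le_rfl le_rfl).1
    have e : lam * (r / lam) = r := by field_simp
    have q2 := setInt_le_wt h tm (isOpen_B h.dist tm x r) (h.alg.sm_s0 cf.sm t hm)
      (h.alg.s0_Q tm 0) (cf.nn t hm) (h.evo.Q_nonneg 0 t tm) fun y hy =>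
        (h1 t hm y (by rw [e]; exact hy)).ge
    have e2 : C * (r / lam) ^ 2 = C / lam ^ 2 * r ^ 2 := by field_simp
    linarith
  · have k1 : lam * r0 ≤ r := by
      have := (lt_div_iff₀ hl).1 (not_le.1 k); linarith
    have q1 := setIntegral_le_integral (s := H.B t x r) iQ
      (Filter.Eventually.of_forall fun y => h.evo.Q_nonneg 0 t tm y)
    have q2 : ∫ y, H.Q 0 t y ∂H.vol t ≤ ∫ y, 4 * H.N 0 t y ∂H.vol t :=
      integral_mono iQ ((h.alg.integrable h.int tm (h.alg.s0_N tm 0)).const_mul 4)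
        fun y => h.evo.Q_le 0 t tm y
    rw [integral_const_mul] at q2
    have q3 : 4 * E ≤ 4 * E / (lam * r0) ^ 2 * r ^ 2 := by
      rw [div_mul_eq_mul_div, le_div_iff₀ (by positivity)]; gcongr
    linarith [hN t ht]

end HC

end Crest.Agent.N207

end
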