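import Crest.Agent.N207.C.HC

/-!
# Row 207, block D: small kit and the evolution of `|Ric|² / (R + c)`
-/

set_option autoImplicit false
set_option linter.dupNamespace false
set_option linter.unusedSectionVars false
open Set MeasureTheory
open scoped ContDiff

noncomputable section

namespace Crest.Agent.N207.D

variable {M : Type*} [TopologicalSpace M] [MeasurableSpace M] {H : HC M}

theorem st_mem {a b t : ℝ} (h : H.St a b) (ht : t ∈ Icc a b) : t ∈ Ioo 0 H.T :=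
  ⟨lt_of_lt_of_le h.1 ht.1, lt_of_le_of_lt ht.2 h.2.2⟩

theorem st_of_mem {t : ℝ} (ht : t ∈ Ioo 0 H.T) : ∃ a b, H.St a b ∧ t ∈ Icc a b :=
  ⟨t / 2, (t + H.T) / 2, ⟨by linarith [ht.1], by linarith [ht.1, ht.2], by linarith [ht.2]⟩,
    ⟨by linarith [ht.1], by linarith [ht.2]⟩⟩

theorem s0_R (hA : H.Alg) {t : ℝ} (ht : t ∈ Ioo 0 H.T) : H.S0 (H.R t) := by
  obtain ⟨a, b, h, hm⟩ := st_of_mem ht
  exact hA.sm_s0 (hA.sm_R h) t hm

theorem s0_N (hA : H.Alg) (k : ℕ) {t : ℝ} (ht : t ∈ Ioo 0 H.T) : H.S0 (H.N k t) := by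
  obtain ⟨a, b, h, hm⟩ := st_of_mem ht
  exact hA.sm_s0 (hA.sm_N k h) t hm

theorem s0_Q (hA : H.Alg) (k : ℕ) {t : ℝ} (ht : t ∈ Ioo 0 H.T) : H.S0 (H.Q k t) := by
  obtain ⟨a, b, h, hm⟩ := st_of_mem ht
  exact hA.sm_s0 (hA.sm_Q k h) t hm

theorem s0_lap (hA : H.Alg) {t : ℝ} (ht : t ∈ Ioo 0 H.T) {u : M → ℝ} (hu : H.S0 u) :
    H.S0 (H.lap t u) := by
  obtain ⟨a, b, h, hm⟩ := st_of_mem ht
  exact hA.sm_s0 (hA.sm_lap h (hA.sm_static hu)) t hm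

theorem s0_gam (hA : H.Alg) {t : ℝ} (ht : t ∈ Ioo 0 H.T) {u v : M → ℝ} (hu : H.S0 u)
    (hv : H.S0 v) : H.S0 (H.gam t u v) := by
  obtain ⟨a, b, h, hm⟩ := st_of_mem ht
  exact hA.sm_s0 (hA.sm_gam h (hA.sm_static hu) (hA.sm_static hv)) t hm

theorem gam_const (hA : H.Alg) {t : ℝ} (ht : t ∈ Ioo 0 H.T) (c : ℝ) {w : M → ℝ} (hw : H.S0 w)
    (x : M) : H.gam t (fun _ => c) w x = 0 := by
  have := hA.gam_comp t ht (u := w) (w := w) (φ := fun _ => c) isOpen_univ contDiffOn_const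
    (fun _ => mem_univ _) hw hw x
  simpa using this

theorem gam_cmul (hA : H.Alg) {t : ℝ} (ht : t ∈ Ioo 0 H.T) (c : ℝ) {v w : M → ℝ} (hv : H.S0 v)
    (hw : H.S0 w) (x : M) : H.gam t (fun y => c * v y) w x = c * H.gam t v w x := by
  rw [hA.gam_mul t ht (hA.s0_const c) hv hw x, gam_const hA ht c hw x]; ring

/-- Cauchy-Schwarz for the carre du champ -/
theorem gam_cs (hA : H.Alg) {t : ℝ} (ht : t ∈ Ioo 0 H.T) {u v : M → ℝ} (hu : H.S0 u)
    (hv : H.S0 v) (x : M) : H.gam t u v x ^ 2 ≤ H.gam t u u x * H.gam t v v x := by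
  have key : ∀ l : ℝ, 0 ≤ H.gam t v v x * (l * l) + 2 * H.gam t u v x * l + H.gam t u u x := by
    intro l
    have hl : H.S0 fun y => l * v y := hA.s0_mul (hA.s0_const l) hv
    have hs : H.S0 fun y => u y + l * v y := hA.s0_add hu hl
    have h0 := hA.gam_nonneg t ht hs x
    rw [hA.gam_add t ht hu hl hs x, gam_cmul hA ht l hv hs x, hA.gam_symm t ht hu hs x,
      hA.gam_symm t ht hv hs x, hA.gam_add t ht hu hl hu x, hA.gam_add t ht hu hl hv x,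
      gam_cmul hA ht l hv hu x, gam_cmul hA ht l hv hv x, hA.gam_symm t ht hv hu x] at h0
    nlinarith
  have := discrim_le_zero key
  unfold discrim at this
  nlinarith

theorem sm_const (hA : H.Alg) {a b : ℝ} (c : ℝ) : H.Sm a b fun _ _ => c :=
  hA.sm_static (hA.s0_const c)

theorem sm_cmul (hA : H.Alg) {a b : ℝ} (c : ℝ) {f : ℝ → M → ℝ} (hf : H.Sm a b f) :
    H.Sm a b fun t x => c * f t x := hA.sm_mul (sm_const hA c) hf

theorem sm_sub (hA : H.Alg) {a b : ℝ} {f g : ℝ → M → ℝ} (hf : H.Sm a b f) (hg : H.Sm a b g) :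
    H.Sm a b fun t x => f t x - g t x :=
  hA.sm_congr (hA.sm_add hf (sm_cmul hA (-1) hg)) fun t _ => by funext x; ring

theorem sm_sq (hA : H.Alg) {a b : ℝ} {f : ℝ → M → ℝ} (hf : H.Sm a b f) :
    H.Sm a b fun t x => f t x ^ 2 :=
  hA.sm_congr (hA.sm_mul hf hf) fun t _ => by funext x; ring

theorem sm_Pf (hA : H.Alg) {a b : ℝ} (h : H.St a b) : H.Sm a b H.Pf :=
  hA.sm_congr (hA.sm_add (sm_sub hA (hA.sm_N 0 h) (sm_cmul hA 4 (hA.sm_Q 0 h)))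
    (sm_sq hA (hA.sm_R h))) fun t _ => by funext x; simp [HC.Pf]

theorem hasDt_unique {a b : ℝ} (hab : a < b) {f f' f'' : ℝ → M → ℝ} (h1 : HasDt a b f f')
    (h2 : HasDt a b f f'') {t : ℝ} (ht : t ∈ Icc a b) (x : M) : f' t x = f'' t x :=
  (uniqueDiffOn_Icc hab t ht).eq_deriv _ (h1 t ht x) (h2 t ht x)

theorem hasDt_mul {a b : ℝ} {f f' g g' : ℝ → M → ℝ} (hf : HasDt a b f f') (hg : HasDt a b g g') :
    HasDt a b (fun t x => f t x * g t x) fun t x => f' t x * g t x + f t x * g' t x :=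
  fun t ht x => (hf t ht x).mul (hg t ht x)

/-- the inverse of `r + c` -/
def iv (c r : ℝ) : ℝ := (r + c)⁻¹

theorem iv_cd (c : ℝ) : ContDiffOn ℝ ∞ (iv c) (Ioi (-c)) := by
  unfold iv
  refine ContDiffOn.inv (contDiffOn_id.add contDiffOn_const) fun r hr => ?_
  have : -c < r := hr
  exact (show (0 : ℝ) < r + c by linarith).ne'

theorem iv_has {c r : ℝ} (hr : -c < r) : HasDerivAt (iv c) (-((r + c) ^ 2)⁻¹) r := by
  have h0 : r + c ≠ 0 := (show (0 : ℝ) < r + c by linarith).ne'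
  have := ((hasDerivAt_id r).add_const c).inv h0
  refine HasDerivAt.congr_deriv (f := iv c) this ?_
  simp only [id]
  field_simp

theorem iv_d1 {c r : ℝ} (hr : -c < r) : deriv (iv c) r = -((r + c) ^ 2)⁻¹ := (iv_has hr).deriv

theorem iv_d2 {c r : ℝ} (hr : -c < r) : deriv (deriv (iv c)) r = 2 * ((r + c) ^ 3)⁻¹ := by
  have h0 : r + c ≠ 0 := (show (0 : ℝ) < r + c by linarith).ne'
  have he : deriv (iv c) =ᶠ[nhds r] fun s => -((s + c) ^ 2)⁻¹ := by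
    filter_upwards [Ioi_mem_nhds hr] with s hs using iv_d1 hs
  rw [he.deriv_eq]
  have := ((((hasDerivAt_id r).add_const c).pow 2).inv (pow_ne_zero 2 h0)).neg
  refine (HasDerivAt.congr_deriv (f := fun s => -((s + c) ^ 2)⁻¹) this ?_).deriv
  simp only [id, Pi.pow_apply]
  field_simp
  simp [mul_comm]

/-- Simon's quotient `|Ric|² / (R + c)` -/
def fq (H : HC M) (c t : ℝ) (x : M) : ℝ := H.Q 0 t x * iv c (H.R t x)

theorem sm_iv (hA : H.Alg) {c a b : ℝ} (h : H.St a b)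
    (hc : ∀ t ∈ Ioo 0 H.T, ∀ x, 1 ≤ H.R t x + c) : H.Sm a b fun t x => iv c (H.R t x) :=
  hA.sm_comp isOpen_Ioi (iv_cd c)
    (fun t ht x => by have := hc t (st_mem h ht) x; show -c < _; linarith) (hA.sm_R h)

theorem sm_fq (hA : H.Alg) {c a b : ℝ} (h : H.St a b)
    (hc : ∀ t ∈ Ioo 0 H.T, ∀ x, 1 ≤ H.R t x + c) : H.Sm a b (fq H c) :=
  hA.sm_mul (hA.sm_Q 0 h) (sm_iv hA h hc)

theorem fq_nonneg (hE : H.Evo) {c t : ℝ} (ht : t ∈ Ioo 0 H.T) {x : M} (hc : 1 ≤ H.R t x + c) :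
    0 ≤ fq H c t x :=
  mul_nonneg (hE.Q_nonneg 0 t ht x) (inv_nonneg.2 (by linarith))

theorem Q_eq_fq {c t : ℝ} {x : M} (hc : 1 ≤ H.R t x + c) :
    H.Q 0 t x = fq H c t x * (H.R t x + c) := by
  unfold fq iv
  have : H.R t x + c ≠ 0 := (show (0 : ℝ) < H.R t x + c by linarith).ne'
  field_simp

/-- the evolution of `|Ric|²` -/
theorem dt_Q0 (hE : H.Evo) : ∃ C, 0 ≤ C ∧ ∀ {a b : ℝ} {Q' : ℝ → M → ℝ}, H.St a b →
    HasDt a b (H.Q 0) Q' → ∀ t ∈ Icc a b, ∀ x,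
      |Q' t x - H.lap t (H.Q 0 t) x + 2 * H.Q 1 t x| ≤ C * √(H.N 0 t x) * H.Q 0 t x := by
  obtain ⟨C, hC, h⟩ := hE.dt_Q 0
  refine ⟨C, hC, fun hs hQ t ht x => ?_⟩
  have := h hs hQ t ht x
  simp only [zero_add, Finset.range_one, Finset.sum_singleton, Nat.sub_zero] at this
  have e : √(H.Q 0 t x) * √(H.Q 0 t x) = H.Q 0 t x :=
    Real.mul_self_sqrt (hE.Q_nonneg 0 t (st_mem hs ht) x)
  calc _ ≤ _ := this
    _ = C * √(H.N 0 t x) * (√(H.Q 0 t x) * √(H.Q 0 t x)) := by ring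
    _ = _ := by rw [e]

/-- (D1) `(∂ₜ - Δ) f ≤ -2 f² + C |Rm| f` -/
theorem dt_fq (hA : H.Alg) (hE : H.Evo) : ∃ C, 0 ≤ C ∧ ∀ {c a b : ℝ} {f' : ℝ → M → ℝ},
    (∀ t ∈ Ioo 0 H.T, ∀ x, 1 ≤ H.R t x + c) → H.St a b → HasDt a b (fq H c) f' →
    ∀ t ∈ Icc a b, ∀ x, f' t x - H.lap t (fq H c t) x ≤
      -2 * fq H c t x ^ 2 + C * √(H.N 0 t x) * fq H c t x := by
  obtain ⟨C, hC, hQ⟩ := dt_Q0 hE
  refine ⟨C, hC, fun {c a b f'} hc hs hf t ht x => ?_⟩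
  have hm := st_mem hs ht
  obtain ⟨Q', -, hQ'⟩ := hA.sm_dt hs.2.1 (hA.sm_Q 0 hs)
  have hU : ∀ y, H.R t y ∈ Ioi (-c) := fun y => by
    have := hc t hm y; show -c < _; linarith
  have hiv : HasDt a b (fun t x => iv c (H.R t x)) fun t x =>
      -((H.R t x + c) ^ 2)⁻¹ * (H.lap t (H.R t) x + 2 * H.Q 0 t x) := fun s hs' y => by
    have h1 : -c < H.R s y := by have := hc s (st_mem hs hs') y; linarith
    exact HasDerivAt.comp_hasDerivWithinAt (h₂ := iv c) s (iv_has h1) (hE.dt_R hs s hs' y)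
  have e1 := hasDt_unique hs.2.1 hf (hasDt_mul hQ' hiv) ht x
  have sQ := s0_Q hA 0 hm
  have sR := s0_R hA hm
  have sI : H.S0 fun y => iv c (H.R t y) := hA.s0_comp isOpen_Ioi (iv_cd c) hU sR
  have e2 : H.lap t (fq H c t) x = _ := hA.lap_mul t hm sQ sI x
  rw [hA.lap_comp t hm isOpen_Ioi (iv_cd c) hU sR x, hA.gam_symm t hm sQ sI x,
    hA.gam_comp t hm isOpen_Ioi (iv_cd c) hU sR sQ x, iv_d1 (hU x), iv_d2 (hU x)] at e2
  have h1 := (abs_le.1 (hQ hs hQ' t ht x)).2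
  have cs := gam_cs hA hm sR sQ x
  have ka := hE.kato_Q 0 t hm x
  have g0 := hA.gam_nonneg t hm sR x
  have q0 := hE.Q_nonneg 0 t hm x
  have q1 := hE.Q_nonneg 1 t hm x
  have hv := hc t hm x
  rw [e1, e2]
  unfold fq iv
  simp only [zero_add] at ka
  set v := H.R t x + c
  set g := H.gam t (H.R t) (H.Q 0 t) x
  set G := H.gam t (H.R t) (H.R t) x
  set q := H.Q 0 t x
  set p := H.Q 1 t x
  have hv0 : 0 < v := by linarith
  have hg : g * v ≤ p * v ^ 2 + q * G := by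
    have h2 : g ^ 2 ≤ G * (4 * q * p) := cs.trans (mul_le_mul_of_nonneg_left ka g0)
    have h3 : (g * v) ^ 2 ≤ (p * v ^ 2 + q * G) ^ 2 := by
      have : (g * v) ^ 2 ≤ G * (4 * q * p) * v ^ 2 := by
        rw [mul_pow]; exact mul_le_mul_of_nonneg_right h2 (sq_nonneg v)
      nlinarith [sq_nonneg (p * v ^ 2 - q * G)]
    exact (abs_le_of_sq_le_sq' h3 (by positivity)).2
  set w := v⁻¹ with hw
  have hw0 : 0 < w := inv_pos.2 hv0
  have hvw : v * w = 1 := mul_inv_cancel₀ hv0.ne'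
  have i2 : (v ^ 2)⁻¹ = w ^ 2 := by rw [hw, inv_pow]
  have i3 : (v ^ 3)⁻¹ = w ^ 3 := by rw [hw, inv_pow]
  rw [i2, i3]
  have k1 : g * w ^ 2 ≤ p * w + q * G * w ^ 3 := by
    have := mul_le_mul_of_nonneg_right hg (pow_pos hw0 3).le
    have e3 : g * v * w ^ 3 = g * w ^ 2 * (v * w) := by ring
    have e4 : (p * v ^ 2 + q * G) * w ^ 3 = p * w * (v * w) ^ 2 + q * G * w ^ 3 := by ring
    rw [e3, e4, hvw] at this
    linarith
  have k2 := mul_le_mul_of_nonneg_right h1 hw0.le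
  nlinarith

end Crest.Agent.N207.D

end
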