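import Crest.Agent.N207.D.QLoc
import Crest.Agent.N207.Sk.Defs

/-!
# Row 207: the block statement `RICB`
-/

set_option autoImplicit false
set_option linter.unusedSectionVars false

open scoped ContDiff Manifold Topology
open Set MeasureTheory Filter

noncomputable section

namespace Crest.Agent.N207.Sk

variable {M : Type*} [TopologicalSpace M] [ChartedSpace E4 M] [IsManifold 𝓘(ℝ, E4) ∞ M]
  [T3Space M] [ConnectedSpace M] [MeasurableSpace M] [BorelSpace M] [CompactSpace M]

theorem ball_eq_B {F : Flow M} (D : F.hc.Dist) {t : ℝ} (ht : t ∈ Ioo 0 F.T) (x : M) (r : ℝ) :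
    (F.m t).ball x r = F.hc.B t x r := by
  ext y
  show F.hc.d t y x < r ↔ F.hc.d t x y < r
  rw [D.symm t ht]

theorem late_mem {F : Flow M} {t : ℝ} (ht : t ∈ late F) : t ∈ Ioo 0 F.T :=
  ⟨(half_pos F.hT).trans_le ht.1, ht.2⟩

theorem en_eq {F : Flow M} (D : F.hc.Dist) {t : ℝ} (ht : t ∈ Ioo 0 F.T) (x : M) (r : ℝ) :
    en (F.m t) x r = F.hc.en t x r := by
  unfold en; rw [ball_eq_B D ht]; rfl

theorem ricb {F : Flow M} (b : Base F) : RICB F := by
  obtain ⟨C, -, hC⟩ := HC.qLoc b.ok b.c b.d (half_pos F.hT)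
  refine ⟨C, fun t ht x r hr => ?_⟩
  unfold mass
  rw [ball_eq_B b.ok.dist (late_mem ht)]
  exact hC t ht x r hr.1

end Crest.Agent.N207.Sk

end
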